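import Vale.Agent.P254.OneSym.Box
import Vale.Agent.P254.Hull

/-!
P254: bodies invariant under permutations and sign changes lose against the simplex in high
dimension.
-/

open MeasureTheory Set
open scoped Nat

namespace Vale.Agent.P254.OneSym

variable {n m : ℕ}

lemma One.centroid_zero {K : Set (Fin n → ℝ)} (hK : One K) (i : Fin n) : centroid K i = 0 := by
  have h := hK.integral_flip i fun x => x i
  simp only [Function.update_self, integral_neg] at h
  rw [centroid, show ∫ x in K, x i = 0 by linarith, mul_zero]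

lemma One.cov_eq {K : Set (Fin (m + 1) → ℝ)} (hK : One K) :
    cov K = ((volume.real K)⁻¹ * ∫ x in K, x 0 ^ 2) • (1 : Matrix (Fin (m + 1)) (Fin (m + 1)) ℝ) := by
  ext i j
  simp only [cov, Matrix.of_apply, hK.centroid_zero, sub_zero, Matrix.smul_apply, smul_eq_mul]
  by_cases h : i = j
  · subst h
    have e := hK.integral_perm (Equiv.swap 0 i) fun x => x 0 ^ 2
    simp only [Equiv.swap_apply_left] at e
    rw [Matrix.one_apply_eq, mul_one, ← e]
    simp [sq]
  · have e := hK.integral_flip i fun x => x i * x j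
    simp only [Function.update_self, Function.update_of_ne (Ne.symm h), neg_mul, integral_neg] at e
    rw [Matrix.one_apply_ne h, mul_zero, show ∫ x in K, x i * x j = 0 by linarith, mul_zero]

lemma One.mom_pos {K : Set (Fin (m + 1) → ℝ)} (hK : One K) : 0 < mom K := by
  refine (setIntegral_pos_iff_support_of_nonneg_ae (ae_of_all _ fun x => abs_nonneg _)
    (integrableOn_abs hK 0)).mpr ?_
  have h0 : volume {x : Fin (m + 1) → ℝ | x 0 = 0} = 0 := by
    rw [volume_pi]; exact Measure.pi_hyperplane _ 0 0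
  refine lt_of_lt_of_le (Measure.measure_pos_of_nonempty_interior volume hK.ne) ?_
  calc volume K ≤ volume ((Function.support fun x : Fin (m + 1) → ℝ => |x 0|) ∩ K ∪
        {x | x 0 = 0}) := measure_mono fun x hx => by
          by_cases h : x 0 = 0
          · exact Or.inr h
          · exact Or.inl ⟨by simpa using h, hx⟩
    _ ≤ _ := (measure_union_le _ _).trans (by rw [h0, add_zero])

/-- The value of a simplex. -/
lemma simplex_value {v : Fin (n + 1) → Fin n → ℝ} (hv : (vmat v).det ≠ 0) :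
    isotropicConst (convexHull ℝ (Set.range v)) =
      ((n ! : ℝ) ^ (n + 3) * ((n : ℝ) + 2) / ((n + 2)! : ℝ) ^ (n + 1)) ^ (1 / (2 * (n : ℝ))) := by
  have hh : hull v (v 0) = convexHull ℝ (Set.range v) := by
    refine congrArg _ (Set.Subset.antisymm ?_ ?_)
    · rintro _ ⟨k, rfl⟩
      cases k with
      | none => exact ⟨0, rfl⟩
      | some i => exact ⟨i, rfl⟩
    · rintro _ ⟨i, rfl⟩; exact ⟨some i, rfl⟩
  have hb : bary v (v 0) = Pi.single 0 1 :=
    bary_eq hv (by simp) (by simp [Pi.single_apply])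
  have hn : ∀ i, neg' (bary v (v 0)) i = 0 := fun i => by
    rw [hb, neg', max_eq_right]
    by_cases h : i = 0 <;> simp [h]
  rw [← hh, isotropicConst_hull hv (P := 0) (R := 0) (Q := ∑ i, pos' (bary v (v 0)) i ^ 2)
    (by simp [hn]) (by simp [hn]) rfl]
  norm_num

/-- The comparison of the two dimension-dependent constants. -/
lemma growth {n : ℕ} (hn : 1000000 ≤ n) :
    4 * (Real.exp 1 ^ 3) * ((n : ℝ) + 1) <
      (8 * (249 / 250 * (100 / 101) : ℝ) ^ 2 / Real.exp 1 ^ 2) ^ n := by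
  have he := Real.exp_one_lt_d9
  have he0 := Real.exp_pos 1
  have he2 : Real.exp 1 ^ 2 < 7.39 :=
    (pow_lt_pow_left₀ he he0.le (by norm_num)).trans (by norm_num)
  have he3 : Real.exp 1 ^ 3 < 21 :=
    (pow_lt_pow_left₀ he he0.le (by norm_num)).trans (by norm_num)
  have hb : (21 / 20 : ℝ) ≤ 8 * (249 / 250 * (100 / 101) : ℝ) ^ 2 / Real.exp 1 ^ 2 := by
    rw [le_div_iff₀ (pow_pos he0 2)]
    linarith
  set j := n / 2 with hj
  have hj' : (n : ℝ) / 2 - 1 ≤ (j : ℝ) := by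
    have : (n : ℝ) ≤ 2 * (j : ℝ) + 1 := by exact_mod_cast (by omega : n ≤ 2 * j + 1)
    linarith
  have h1 : 1 + (j : ℝ) * (1 / 20) ≤ (21 / 20 : ℝ) ^ j := by
    have := one_add_mul_le_pow (a := (1 / 20 : ℝ)) (by norm_num) j
    norm_num at this ⊢
    linarith
  have h2 : ((21 / 20 : ℝ) ^ j) ^ 2 ≤ (21 / 20 : ℝ) ^ n := by
    rw [← pow_mul]
    exact pow_le_pow_right₀ (by norm_num) (by omega)
  have hn' : (1000000 : ℝ) ≤ n := by exact_mod_cast hn
  have h3 : ((n : ℝ) / 50) ^ 2 ≤ ((21 / 20 : ℝ) ^ j) ^ 2 :=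
    pow_le_pow_left₀ (by positivity) (by linarith) 2
  have h4 := pow_le_pow_left₀ (by norm_num) hb n
  have h5 := mul_lt_mul_of_pos_right he3 (by linarith : (0 : ℝ) < 4 * ((n : ℝ) + 1))
  nlinarith

lemma factorial_lb (n : ℕ) : ((n : ℝ) ^ n) ≤ (n ! : ℝ) * Real.exp 1 ^ n := by
  have h := Real.pow_div_factorial_le_exp (x := (n : ℝ)) (Nat.cast_nonneg n) n
  rw [div_le_iff₀ (by positivity), ← Real.exp_one_pow] at h
  linarith

/-- A lower bound for the simplex value. -/
lemma simplex_lb {n : ℕ} (hn : 1 ≤ n) :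
    1 / (Real.exp 1 ^ (2 * n + 3) * ((n : ℝ) + 1)) ≤
      (n ! : ℝ) ^ (n + 3) * ((n : ℝ) + 2) / ((n + 2)! : ℝ) ^ (n + 1) := by
  set F : ℝ := (n ! : ℝ)
  have hF : 0 < F := by positivity
  have hn0 : (0 : ℝ) < n := by exact_mod_cast hn
  have e : ((n + 2)! : ℝ) = ((n : ℝ) + 2) * ((n : ℝ) + 1) * F := by
    simp only [F]; push_cast [Nat.factorial_succ]; ring
  have hr : F ^ (n + 3) * ((n : ℝ) + 2) / (((n : ℝ) + 2) * ((n : ℝ) + 1) * F) ^ (n + 1) =
      F ^ 2 / (((n : ℝ) + 2) ^ n * ((n : ℝ) + 1) ^ (n + 1)) := by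
    rw [mul_pow, mul_pow, div_eq_div_iff (by positivity) (by positivity)]
    ring
  rw [e, hr, div_le_div_iff₀ (by positivity) (by positivity), one_mul]
  have hf := factorial_lb n
  have h1 : ((n : ℝ) + 1) ^ n ≤ (n : ℝ) ^ n * Real.exp 1 := by
    have := pow_le_pow_left₀ (by positivity) (Real.add_one_le_exp (1 / (n : ℝ))) n
    rw [← Real.exp_nat_mul, show (n : ℝ) * (1 / (n : ℝ)) = 1 by field_simp] at this
    calc ((n : ℝ) + 1) ^ n = (n : ℝ) ^ n * (1 / (n : ℝ) + 1) ^ n := by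
          rw [← mul_pow]; congr 1; field_simp; ring
      _ ≤ _ := mul_le_mul_of_nonneg_left this (by positivity)
  have h2 : ((n : ℝ) + 2) ^ n ≤ (n : ℝ) ^ n * Real.exp 1 ^ 2 := by
    have := pow_le_pow_left₀ (by positivity) (Real.add_one_le_exp (2 / (n : ℝ))) n
    rw [← Real.exp_nat_mul, show (n : ℝ) * (2 / (n : ℝ)) = (2 : ℕ) * 1 by field_simp; norm_num,
      Real.exp_nat_mul] at this
    calc ((n : ℝ) + 2) ^ n = (n : ℝ) ^ n * (2 / (n : ℝ) + 1) ^ n := by
          rw [← mul_pow]; congr 1; field_simp; ring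
      _ ≤ _ := mul_le_mul_of_nonneg_left this (by positivity)
  calc ((n : ℝ) + 2) ^ n * ((n : ℝ) + 1) ^ (n + 1)
      ≤ (n : ℝ) ^ n * Real.exp 1 ^ 2 * ((n : ℝ) ^ n * Real.exp 1) * ((n : ℝ) + 1) := by
        rw [pow_succ, ← mul_assoc]
        exact mul_le_mul_of_nonneg_right (mul_le_mul h2 h1 (by positivity) (by positivity))
          (by positivity)
    _ ≤ F * Real.exp 1 ^ n * Real.exp 1 ^ 2 * (F * Real.exp 1 ^ n * Real.exp 1) * ((n : ℝ) + 1) := by
        gcongr
    _ = _ := by ring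

/-- The main theorem. -/
theorem main (hm : 100000000000000 ≤ m + 1) {K : Set (Fin (m + 1) → ℝ)} (hK : One K)
    {u : Fin (m + 1 + 1) → Fin (m + 1) → ℝ} (hu : AffineIndependent ℝ u) :
    isotropicConst K < isotropicConst (convexHull ℝ (Set.range u)) := by
  rw [simplex_value ((affineIndependent_iff_det u).1 hu)]
  have hV := hK.vol_pos
  have hM := hK.mom_pos
  set V := volume.real K
  set S := ∫ x in K, x 0 ^ 2
  set μ := mom K / V with hμdef
  have hμ : 0 < μ := div_pos hM hV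
  set q : ℝ := 249 / 250 * (100 / 101) with hq
  have hq0 : 0 < q := by rw [hq]; norm_num
  have hσ0 : 0 ≤ V⁻¹ * S := mul_nonneg (inv_nonneg.mpr hV.le) (integral_nonneg fun x => sq_nonneg _)
  have hσ : V⁻¹ * S ≤ 2 * μ ^ 2 := by
    have h := second_le hK
    rw [hμdef, div_pow, inv_mul_eq_div, mul_div, div_le_div_iff₀ hV (by positivity)]
    calc S * V ^ 2 = S * V * V := by ring
      _ ≤ _ := mul_le_mul_of_nonneg_right h hV.le
  have hbox : (4 * q * μ) ^ (m + 1) ≤ 2 * V := vol_lb hK hm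
  rw [isotropicConst, hK.cov_eq, Matrix.det_smul, Matrix.det_one, Fintype.card_fin, mul_one]
  refine Real.rpow_lt_rpow (by positivity) ?_ (by positivity)
  refine lt_of_lt_of_le ?_ (simplex_lb (n := m + 1) (by omega))
  rw [div_lt_div_iff₀ (pow_pos hV 2) (by positivity), one_mul]
  have hg := growth (n := m + 1) (by omega)
  rw [← hq, div_pow, lt_div_iff₀ (by positivity)] at hg
  have ht : 0 < (2 * μ ^ 2) ^ (m + 1) := by positivity
  have h1 := mul_lt_mul_of_pos_right hg ht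
  have h2 := pow_le_pow_left₀ hσ0 hσ (m + 1)
  have h3 := pow_le_pow_left₀ (by positivity) hbox 2
  have e : (8 * q ^ 2) ^ (m + 1) * (2 * μ ^ 2) ^ (m + 1) = ((4 * q * μ) ^ (m + 1)) ^ 2 := by
    rw [← mul_pow, ← pow_mul, mul_comm (m + 1) 2, pow_mul]
    congr 1; ring
  rw [e] at h1
  have h4 := mul_le_mul_of_nonneg_right h2
    (by positivity : 0 ≤ Real.exp 1 ^ (2 * (m + 1) + 3) * (((m + 1 : ℕ) : ℝ) + 1))
  have e2 : 4 * Real.exp 1 ^ 3 * (((m + 1 : ℕ) : ℝ) + 1) * (Real.exp 1 ^ 2) ^ (m + 1) * (2 * μ ^ 2) ^ (m + 1) =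
      4 * ((2 * μ ^ 2) ^ (m + 1) * (Real.exp 1 ^ (2 * (m + 1) + 3) * (((m + 1 : ℕ) : ℝ) + 1))) := by
    rw [← pow_mul]; ring
  rw [e2] at h1
  linarith

end Vale.Agent.P254.OneSym
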