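import Vale.Agent.P254.OneSym.Second

/-!
P254: a body of this class contains most of a cube.
-/

open MeasureTheory Set
open scoped Finset

namespace Vale.Agent.P254.OneSym

variable {n m : ℕ}

lemma One.perm_mem {K : Set (Fin n → ℝ)} (hK : One K) {x : Fin n → ℝ} (hx : x ∈ K)
    (σ : Equiv.Perm (Fin n)) (y : Fin n → ℝ) (h : ∀ i, |y i| = |x (σ i)|) : y ∈ K :=
  hK.signs (hK.perm σ x hx) h

/-- A vector dominated by the mean rearrangement lies in the body. -/
theorem mem_of_top_le {K : Set (Fin n → ℝ)} (hK : One K) {y : Fin n → ℝ}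
    (h : ∀ k ≤ n, volume.real K * top k (av y) ≤ phi K k) : y ∈ K := by
  classical
  by_contra hy
  obtain ⟨f, u, hu, hfu⟩ := geometric_hahn_banach_closed_point hK.cvx hK.cpt.isClosed hy
  set c : Fin n → ℝ := fun i => f (Pi.single i 1)
  have hf : ∀ x, f x = ∑ i, c i * x i := fun x => by
    have e : x = ∑ i, x i • (Pi.single i (1 : ℝ) : Fin n → ℝ) := by
      funext j; simp [Finset.sum_apply, Pi.single_apply]
    conv_lhs => rw [e]
    simp [c, mul_comm]
  set a := srtN (av c)
  have hτ : ∀ z : Fin n → ℝ, ∑ j ∈ Finset.range n, a j * srtN (av z) j =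
      ∑ j : Fin n, srt (av c) j * srt (av z) j := fun z => by
    rw [← Fin.sum_univ_eq_sum_range]
    exact Finset.sum_congr rfl fun j _ => by simp [a, srtN_of_lt]
  -- the body
  have hup : ∀ x ∈ K, ∑ j ∈ Finset.range n, a j * srtN (av x) j ≤ u := fun x hx => by
    set τc := Tuple.sort fun i => -av c i
    set τx := Tuple.sort fun i => -av x i
    set z : Fin n → ℝ := fun i => if 0 ≤ c i then |x (τx (τc.symm i))| else -|x (τx (τc.symm i))|
    have hz : z ∈ K := hK.perm_mem hx (τc.symm.trans τx) z fun i => by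
      by_cases h : 0 ≤ c i <;> simp [z, h]
    have := hu z hz
    rw [hf] at this
    rw [hτ]
    refine le_trans (le_of_eq ?_) this.le
    rw [← Equiv.sum_comp τc fun i => c i * z i]
    refine Finset.sum_congr rfl fun j _ => ?_
    show av c (τc j) * av x (τx j) = _
    simp only [z, Equiv.symm_apply_apply, av]
    by_cases h : 0 ≤ c (τc j)
    · simp [h, abs_of_nonneg h]
    · simp [h, abs_of_nonpos (not_le.mp h).le]
  have hbody : ∑ j ∈ Finset.range n, a j * zeta K j ≤ u * volume.real K := by
    simp only [zeta, ← integral_const_mul]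
    rw [← integral_finsetSum _ fun j _ => (integrableOn_srtN hK j).const_mul _]
    calc ∫ x in K, ∑ j ∈ Finset.range n, a j * srtN (av x) j
        ≤ ∫ _x in K, u := setIntegral_mono_on
          (integrable_finsetSum _ fun j _ => (integrableOn_srtN hK j).const_mul _)
          (continuous_const.continuousOn.integrableOn_compact hK.cpt) hK.cpt.measurableSet hup
      _ = u * volume.real K := by simp [mul_comm]
  -- the point
  have hpoint : f y ≤ ∑ j ∈ Finset.range n, a j * srtN (av y) j := by
    rw [hτ, hf]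
    set τc := Tuple.sort fun i => -av c i
    set τy := Tuple.sort fun i => -av y i
    calc ∑ i, c i * y i ≤ ∑ i, av c i * av y i := Finset.sum_le_sum fun i _ => by
          rw [av, av, ← abs_mul]; exact le_abs_self _
      _ = ∑ j, srt (av c) j • srt (av y) ((τc.trans τy.symm) j) := by
          rw [← Equiv.sum_comp τc fun i => av c i * av y i]
          refine Finset.sum_congr rfl fun j _ => ?_
          show _ = av c (τc j) • av y (τy (τy.symm (τc j)))
          rw [Equiv.apply_symm_apply, smul_eq_mul]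
      _ ≤ ∑ j, srt (av c) j • srt (av y) j :=
          Monovary.sum_smul_comp_perm_le_sum_smul
            ((srt_antitone _).monovary (srt_antitone _))
      _ = _ := rfl
  have hab := abel (d := fun j => zeta K j - volume.real K * srtN (av y) j)
    (srtN_antitone (av_nonneg c)) (srtN_nonneg (av_nonneg c)) n fun k hk => by
      rw [Finset.sum_sub_distrib, ← Finset.mul_sum, ← phi_eq_sum hK, sub_nonneg]
      exact h k hk
  simp only [mul_sub, Finset.sum_sub_distrib] at hab
  have e : ∑ j ∈ Finset.range n, a j * (volume.real K * srtN (av y) j) =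
      volume.real K * ∑ j ∈ Finset.range n, a j * srtN (av y) j := by
    rw [Finset.mul_sum]; exact Finset.sum_congr rfl fun j _ => by ring
  rw [e] at hab
  have := mul_lt_mul_of_pos_left (hfu.trans_le hpoint) hK.vol_pos
  linarith

lemma exp_le_quad {z : ℝ} (hz : |z| ≤ 1) : Real.exp z ≤ 1 + z + z ^ 2 := by
  have := (abs_le.mp (Real.abs_exp_sub_one_sub_id_le hz)).2
  linarith

/-- The Chernoff bound on a cube. -/
lemma chernoff {c s δ : ℝ} (hc : 0 < c) (hs0 : 0 ≤ s) (hs1 : s ≤ 1) (hδ0 : 0 ≤ δ) (hδ1 : δ ≤ 1) :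
    volume.real ((Set.univ.pi fun _ : Fin n => Icc (-c) c) ∩
        {y | (n : ℝ) * c * (s ^ 2 / 2 + δ) < ∑ i, max (|y i| - c * (1 - s)) 0}) ≤
      (2 * c) ^ n * Real.exp (-((n : ℝ) * δ ^ 2 / 4)) := by
  set Q := Set.univ.pi fun _ : Fin n => Icc (-c) c
  set τ := c * (1 - s) with hτ
  set φ : ℝ → ℝ := fun u => max (|u| - τ) 0 / c - s ^ 2 / 2
  set z := δ / 2 with hz
  set A := Q ∩ {y | (n : ℝ) * c * (s ^ 2 / 2 + δ) < ∑ i, max (|y i| - τ) 0}
  have hτ0 : 0 ≤ τ := mul_nonneg hc.le (by linarith)
  have hτc : τ ≤ c := mul_le_of_le_one_right hc.le (by linarith)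
  have hQc : IsCompact Q := isCompact_univ_pi fun _ => isCompact_Icc
  have hφ1 : ∀ u ∈ Icc (-c) c, |φ u| ≤ 1 := fun u hu => by
    have hu' : |u| ≤ c := abs_le.mpr hu
    have h1 : max (|u| - τ) 0 / c ≤ 1 := by
      rw [div_le_one hc]; exact max_le (by linarith) hc.le
    have h0 : 0 ≤ max (|u| - τ) 0 / c := div_nonneg (le_max_right _ _) hc.le
    have h2 : s ^ 2 / 2 ≤ 1 / 2 := by nlinarith
    have h3 : 0 ≤ s ^ 2 / 2 := by positivity
    exact abs_le.mpr ⟨by simp only [φ]; linarith, by simp only [φ]; linarith⟩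
  have hφc : Continuous φ := by fun_prop
  have hone : ∫ u in Icc (-c) c, Real.exp (z * φ u) ≤ 2 * c * Real.exp (z ^ 2) := by
    have hq : ∀ u ∈ Icc (-c) c, Real.exp (z * φ u) ≤ 1 + z * φ u + z ^ 2 := fun u hu => by
      have h1 := hφ1 u hu
      have : |z * φ u| ≤ 1 := by
        rw [abs_mul, abs_of_nonneg (by positivity : 0 ≤ z)]
        exact mul_le_one₀ (by linarith) (abs_nonneg _) h1
      refine (exp_le_quad this).trans ?_
      have : φ u ^ 2 ≤ 1 := by nlinarith [abs_le.mp h1]
      nlinarith [mul_le_mul_of_nonneg_left this (sq_nonneg z)]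
    refine (setIntegral_mono_on ((by fun_prop : Continuous fun u => Real.exp (z * φ u)).continuousOn.integrableOn_compact isCompact_Icc)
      ((by fun_prop : Continuous fun u => 1 + z * φ u + z ^ 2).continuousOn.integrableOn_compact isCompact_Icc)
      measurableSet_Icc hq).trans (le_of_eq_of_le ?_ (mul_le_mul_of_nonneg_left
        (Real.add_one_le_exp (z ^ 2)) (by linarith : 0 ≤ 2 * c)))
    have iI : ∀ {g : ℝ → ℝ}, Continuous g → IntegrableOn g (Icc (-c) c) := fun {g} hg =>
      hg.continuousOn.integrableOn_compact isCompact_Icc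
    have hφ0 : ∫ u in Icc (-c) c, φ u = 0 := by
      simp only [φ]
      rw [integral_sub (iI (by fun_prop)) (iI (by fun_prop)), integral_div,
        int_abs (g := fun u => max (u - τ) 0) hc.le (iI (by fun_prop)), int_ramp hτ0 hc.le,
        setIntegral_const, smul_eq_mul, Real.volume_real_Icc_of_le (by linarith),
        max_eq_left (by linarith)]
      rw [hτ]
      field_simp
      ring
    rw [integral_add (iI (by fun_prop)) (iI (by fun_prop)),
      integral_add (iI (by fun_prop)) (iI (by fun_prop)), integral_const_mul, hφ0,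
      setIntegral_const, setIntegral_const, smul_eq_mul, smul_eq_mul,
      Real.volume_real_Icc_of_le (by linarith)]
    ring
  have hprod : ∫ y in Q, Real.exp (z * ∑ i, φ (y i)) ≤ (2 * c) ^ n * Real.exp ((n : ℝ) * z ^ 2) := by
    simp only [Finset.mul_sum, Real.exp_sum]
    rw [show (volume : Measure (Fin n → ℝ)) = Measure.pi fun _ => volume from volume_pi,
      Measure.restrict_pi_pi, integral_fintype_prod_eq_prod (fun _ u => Real.exp (z * φ u)),
      Finset.prod_const, Finset.card_univ, Fintype.card_fin, Real.exp_nat_mul, ← mul_pow]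
    exact pow_le_pow_left₀ (integral_nonneg fun _ => (Real.exp_pos _).le) hone n
  have hA : MeasurableSet A := hQc.measurableSet.inter
    (measurableSet_lt measurable_const (by fun_prop))
  have hcont : Continuous fun y : Fin n → ℝ => Real.exp (z * ∑ i, φ (y i)) := by fun_prop
  have hlow : volume.real A * Real.exp (z * (n * δ)) ≤ ∫ y in Q, Real.exp (z * ∑ i, φ (y i)) := by
    have hfin : volume A ≠ ⊤ := ((measure_mono inter_subset_left).trans_lt hQc.measure_lt_top).ne
    refine le_trans ?_ (setIntegral_mono_set (hcont.continuousOn.integrableOn_compact hQc)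
      (ae_of_all _ fun y => (Real.exp_pos _).le) (inter_subset_left (t :=
        {y | (n : ℝ) * c * (s ^ 2 / 2 + δ) < ∑ i, max (|y i| - τ) 0})).eventuallyLE)
    calc volume.real A * Real.exp (z * (n * δ)) = ∫ _y in A, Real.exp (z * (n * δ)) := by simp
      _ ≤ _ := setIntegral_mono_on (integrableOn_const hfin)
          ((hcont.continuousOn.integrableOn_compact hQc).mono_set inter_subset_left) hA fun y hy => by
            refine Real.exp_le_exp.mpr (mul_le_mul_of_nonneg_left ?_ (by positivity))
            have h2 : (n : ℝ) * c * (s ^ 2 / 2 + δ) < ∑ i, max (|y i| - τ) 0 := hy.2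
            simp only [φ]
            rw [Finset.sum_sub_distrib, ← Finset.sum_div, Finset.sum_const, Finset.card_univ,
              Fintype.card_fin, nsmul_eq_mul, le_sub_iff_add_le, le_div_iff₀ hc]
            linarith
  have e : (n : ℝ) * z ^ 2 + -(z * (n * δ)) = -((n : ℝ) * δ ^ 2 / 4) := by rw [hz]; ring
  rw [← e, Real.exp_add, Real.exp_neg, ← mul_assoc, ← div_eq_mul_inv, le_div_iff₀ (Real.exp_pos _)]
  exact hlow.trans hprod

/-- The body contains at least half of a cube. -/
theorem vol_lb {K : Set (Fin (m + 1) → ℝ)} (hK : One K) (hm : 100000000000000 ≤ m + 1) :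
    (4 * (249 / 250 * (100 / 101)) * (mom K / volume.real K)) ^ (m + 1) ≤ 2 * volume.real K := by
  set V := volume.real K
  have hV : 0 < V := hK.vol_pos
  set c := 2 * (249 / 250 * (100 / 101)) * (mom K / V) with hc
  rw [show 4 * (249 / 250 * (100 / 101)) * (mom K / V) = 2 * c by rw [hc]; ring]
  have hc0 : 0 ≤ c := by rw [hc]; have := mom_nonneg K; positivity
  rcases hc0.eq_or_lt with h | hcp
  · rw [← h]; simp [hV.le]
  set Q := Set.univ.pi fun _ : Fin (m + 1) => Icc (-c) c with hQ
  set N : ℝ := (m : ℝ) + 1 with hN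
  have hNe : ((m + 1 : ℕ) : ℝ) = N := by simp [hN]
  have hNbig : (100000000000000 : ℝ) ≤ N := by rw [← hNe]; exact_mod_cast hm
  set bad : ℕ → Set (Fin (m + 1) → ℝ) := fun l => Q ∩ {y | ((m + 1 : ℕ) : ℝ) * c *
      (((l : ℝ) / 100) ^ 2 / 2 + 1 / 25000) < ∑ i, max (|y i| - c * (1 - (l : ℝ) / 100)) 0}
  have hsub : Q ⊆ K ∪ ⋃ l ∈ Finset.range 101, bad l := by
    intro y hy
    by_contra hbad
    simp only [mem_union, mem_iUnion, not_or, not_exists] at hbad
    refine hbad.1 (mem_of_top_le hK fun k hk => ?_)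
    have hgood : ∀ l : ℕ, l ≤ 100 → ∑ i, max (|y i| - c * (1 - (l : ℝ) / 100)) 0 ≤
        N * c * (((l : ℝ) / 100) ^ 2 / 2 + 1 / 25000) := fun l hl => by
      have := hbad.2 l (Finset.mem_range.mpr (by omega))
      rw [← hNe]
      exact not_lt.mp fun h => this ⟨hy, h⟩
    have hyc : ∀ i, |y i| ≤ c := fun i => abs_le.mpr (hy i (mem_univ i))
    have hk0 : (0 : ℝ) ≤ k := Nat.cast_nonneg _
    have hkN : (k : ℝ) ≤ N := by rw [← hNe]; exact_mod_cast hk
    set r : ℝ := (k : ℝ) / N with hr
    have hkr : (k : ℝ) = r * N := by rw [hr, div_mul_cancel₀]; linarith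
    have hr1 : r ≤ 1 := (div_le_one (by linarith)).mpr hkN
    have hr0 : 0 ≤ r := div_nonneg hk0 (by linarith)
    have claim : top k (av y) ≤ c * (101 / 100) * (k * (1 - r / 2)) := by
      have ht := top_le_threshold hk (av y)
      simp only [av] at ht
      by_cases hsmall : r ≤ 1 / 51
      · have := ht c
        rw [Finset.sum_eq_zero fun i _ => max_eq_right (by linarith [hyc i]), add_zero] at this
        refine this.trans ?_
        have := mul_le_mul_of_nonneg_left hsmall (mul_nonneg hk0 hcp.le)
        have := mul_nonneg hk0 hcp.le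
        linarith
      · set l := ⌊r * 100⌋₊
        have hl0 : (l : ℝ) ≤ r * 100 := Nat.floor_le (by positivity)
        have hl1 : r * 100 < (l : ℝ) + 1 := Nat.lt_floor_add_one _
        have hl : l ≤ 100 := Nat.floor_le_of_le (by push_cast; linarith)
        refine (ht (c * (1 - (l : ℝ) / 100))).trans ?_
        refine (add_le_add le_rfl (hgood l hl)).trans ?_
        rw [hkr]
        have hsq : (r - (l : ℝ) / 100) ^ 2 ≤ 1 / 10000 :=
          (pow_le_pow_left₀ (by linarith) (by linarith : r - (l : ℝ) / 100 ≤ 1 / 100) 2).trans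
            (by norm_num)
        have hcN : 0 ≤ c * N := mul_nonneg hcp.le (by linarith)
        have key : r * (1 - (l : ℝ) / 100) + ((l : ℝ) / 100) ^ 2 / 2 + 1 / 25000 ≤
            101 / 100 * (r * (1 - r / 2)) := by
          have := mul_le_mul_of_nonneg_left hr1 hr0
          linarith [not_le.mp hsmall]
        have := mul_le_mul_of_nonneg_left key hcN
        linarith
    refine le_trans (mul_le_mul_of_nonneg_left claim hV.le) (le_of_eq_of_le ?_ (phi_lb hK hm hk))
    rw [hc, ← hN, hr]
    field_simp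
    ring
  have hbadvol : ∀ l ∈ Finset.range 101, volume.real (bad l) ≤ (2 * c) ^ (m + 1) / 202 := by
    intro l hl
    have hl' : (l : ℝ) ≤ 100 := by
      exact_mod_cast Nat.lt_succ_iff.mp (Finset.mem_range.mp hl)
    refine (chernoff (n := m + 1) hcp (by positivity) (by linarith) (by norm_num) (by norm_num)).trans ?_
    rw [div_eq_mul_inv, Real.exp_neg]
    refine mul_le_mul_of_nonneg_left ?_ (by positivity)
    refine inv_anti₀ (by norm_num) (le_trans ?_ (Real.add_one_le_exp _))
    rw [hNe]
    linarith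
  have hQvol : volume.real Q = (2 * c) ^ (m + 1) := by
    rw [hQ, measureReal_def, volume_pi, Measure.pi_pi]
    simp only [Real.volume_Icc, Finset.prod_const, Finset.card_univ, Fintype.card_fin,
      ENNReal.toReal_pow, ENNReal.toReal_ofReal (by linarith : 0 ≤ c - -c)]
    ring
  have hfinU : volume (⋃ l ∈ Finset.range 101, bad l) ≠ ⊤ :=
    ((measure_mono (iUnion₂_subset fun l _ => inter_subset_left)).trans_lt
      (isCompact_univ_pi fun _ => isCompact_Icc).measure_lt_top).ne
  have h1 : volume.real Q ≤ V + ∑ l ∈ Finset.range 101, volume.real (bad l) := by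
    refine (measureReal_mono hsub (measure_union_ne_top hK.cpt.measure_lt_top.ne hfinU)).trans ?_
    exact (measureReal_union_le _ _).trans (add_le_add le_rfl (measureReal_biUnion_finset_le _ _))
  have h2 := h1.trans (add_le_add le_rfl (Finset.sum_le_sum hbadvol))
  rw [Finset.sum_const, Finset.card_range, nsmul_eq_mul, hQvol] at h2
  push_cast at h2
  linarith

end Vale.Agent.P254.OneSym
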