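import Vale.Agent.P254.OneSym.Fibre

/-!
P254: lower bounds for the expected sums of the largest coordinates.
-/

open MeasureTheory Set
open scoped Finset

namespace Vale.Agent.P254.OneSym

variable {n m : ℕ}

/-- The integral of the `j`-th largest modulus. -/
noncomputable def zeta (K : Set (Fin n → ℝ)) (j : ℕ) : ℝ := ∫ x in K, srtN (av x) j

/-- The integral of the sum of the `k` largest moduli. -/
noncomputable def phi (K : Set (Fin n → ℝ)) (k : ℕ) : ℝ := ∫ x in K, top k (av x)

/-- The first absolute moment of a coordinate. -/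
noncomputable def mom (K : Set (Fin (m + 1) → ℝ)) : ℝ := ∫ x in K, |x 0|

lemma av_nonneg (x : Fin n → ℝ) (i : Fin n) : 0 ≤ av x i := abs_nonneg _

lemma integrableOn_srtN {K : Set (Fin n → ℝ)} (hK : One K) (j : ℕ) :
    IntegrableOn (fun x => srtN (av x) j) K := by
  obtain ⟨R, hR, hRb⟩ := hK.bdd
  refine integrableOn_bdd hK.cpt (measurable_srtN.comp measurable_av) (C := n * R) fun x hx => ?_
  show |srtN (av x) j| ≤ _
  rw [abs_of_nonneg (srtN_nonneg (av_nonneg x) j)]
  exact (srtN_le_sum (av_nonneg x) j).trans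
    ((Finset.sum_le_sum fun i _ => hRb x hx i).trans (by simp))

lemma phi_eq_sum {K : Set (Fin n → ℝ)} (hK : One K) (k : ℕ) :
    phi K k = ∑ j ∈ Finset.range k, zeta K j :=
  integral_finsetSum _ fun j _ => integrableOn_srtN hK j

lemma zeta_antitone {K : Set (Fin n → ℝ)} (hK : One K) : Antitone (zeta K) := fun a b h =>
  setIntegral_mono (integrableOn_srtN hK b) (integrableOn_srtN hK a) fun x =>
    srtN_antitone (av_nonneg x) h

lemma zeta_nonneg (K : Set (Fin n → ℝ)) (j : ℕ) : 0 ≤ zeta K j :=
  integral_nonneg fun x => srtN_nonneg (av_nonneg x) j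

lemma integral_abs_eq {K : Set (Fin (m + 1) → ℝ)} (hK : One K) (i : Fin (m + 1)) :
    ∫ x in K, |x i| = mom K := by
  have := hK.integral_perm (Equiv.swap 0 i) fun x => |x 0|
  simpa [mom] using this

lemma integrableOn_abs {K : Set (Fin n → ℝ)} (hK : One K) (i : Fin n) :
    IntegrableOn (fun x => |x i|) K :=
  (continuous_apply i).abs.continuousOn.integrableOn_compact hK.cpt

lemma phi_all {K : Set (Fin (m + 1) → ℝ)} (hK : One K) :
    phi K (m + 1) = ((m : ℝ) + 1) * mom K := by
  simp only [phi, top_all]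
  simp only [av]
  rw [integral_finsetSum _ fun i _ => integrableOn_abs hK i]
  simp [integral_abs_eq hK]

lemma mom_nonneg (K : Set (Fin (m + 1) → ℝ)) : 0 ≤ mom K := integral_nonneg fun _ => abs_nonneg _

lemma phi_step {K : Set (Fin (m + 1) → ℝ)} (hK : One K) {k : ℕ} (hk : 1 ≤ k) (hkm : k ≤ m) :
    (k / ((m : ℝ) + 1)) * (2 - k / ((m : ℝ) + 1)) * (((m : ℝ) + 1) * mom K) ≤
      phi K k + 2 * ((m : ℝ) + 1) * (zeta K (k - 1) - zeta K k) := by
  have h := top_ineq hK hk hkm
  have i1 : IntegrableOn (fun x => top k (av x)) K :=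
    integrable_finsetSum _ fun j _ => integrableOn_srtN hK j
  have i2 : IntegrableOn (fun x => srtN (av x) (k - 1) - srtN (av x) k) K :=
    (integrableOn_srtN hK _).sub (integrableOn_srtN hK _)
  have i3 : IntegrableOn (fun x : Fin (m + 1) → ℝ => ∑ i, |x i|) K :=
    integrable_finsetSum _ fun i _ => integrableOn_abs hK i
  rw [integral_sub (f := fun x => top k (av x) + 2 * ((m : ℝ) + 1) *
      (srtN (av x) (k - 1) - srtN (av x) k)) (i1.add (i2.const_mul _)) (i3.const_mul _),
    integral_add i1 (i2.const_mul _),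
    integral_const_mul, integral_const_mul,
    integral_sub (integrableOn_srtN hK _) (integrableOn_srtN hK _)] at h
  have e : ∫ x in K, ∑ i, |x i| = ((m : ℝ) + 1) * mom K := by
    rw [integral_finsetSum _ fun i _ => integrableOn_abs hK i]
    simp [integral_abs_eq hK]
  rw [e] at h
  unfold phi zeta
  linarith

lemma sum_mul_le {z : ℕ → ℝ} (hz : Antitone z) {k : ℕ} :
    (k : ℝ) * z k ≤ ∑ j ∈ Finset.range k, z j :=
  calc (k : ℝ) * z k = ∑ _j ∈ Finset.range k, z k := by simp
    _ ≤ _ := Finset.sum_le_sum fun j hj => hz (Finset.mem_range.mp hj).le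

lemma avg_antitone {z : ℕ → ℝ} (hz : Antitone z) {k l : ℕ} (h : k ≤ l) :
    (k : ℝ) * ∑ j ∈ Finset.range l, z j ≤ (l : ℝ) * ∑ j ∈ Finset.range k, z j := by
  induction l, h using Nat.le_induction with
  | base => exact le_rfl
  | succ l hkl ih =>
    rw [Finset.sum_range_succ]
    have h1 : (k : ℝ) * z l ≤ ∑ j ∈ Finset.range k, z j :=
      le_trans (mul_le_mul_of_nonneg_left (hz hkl) (Nat.cast_nonneg _)) (sum_mul_le hz)
    push_cast
    nlinarith

lemma window {K : Set (Fin (m + 1) → ℝ)} (hK : One K) {k q : ℕ} (hqk : q < k) (hkm : k ≤ m) :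
    ((q : ℝ) + 1) * (((k - q : ℕ) : ℝ) * (2 - k / ((m : ℝ) + 1)) * mom K) ≤
      ((q : ℝ) + 1) * phi K k + 2 * ((m : ℝ) + 1) * zeta K (k - q - 1) := by
  set N : ℝ := (m : ℝ) + 1
  set A : ℝ := ((k - q : ℕ) : ℝ) * (2 - k / N) * mom K
  have hN : 0 < N := by positivity
  have hmono : ∀ a, a ≤ k → phi K a ≤ phi K k := fun a ha => by
    rw [phi_eq_sum hK, phi_eq_sum hK]
    exact Finset.sum_le_sum_of_subset_of_nonneg (Finset.range_mono ha) fun j _ _ =>
      zeta_nonneg K j
  have key : ∀ i, i ≤ q → A ≤ phi K k + 2 * N *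
      (zeta K (k - q - 1 + i) - zeta K (k - q - 1 + (i + 1))) := by
    intro i hi
    have hs := phi_step hK (show 1 ≤ k - q + i by omega) (by omega)
    rw [show k - q + i - 1 = k - q - 1 + i by omega] at hs
    rw [show k - q - 1 + (i + 1) = k - q + i by omega]
    have h2 := hmono (k - q + i) (by omega)
    set a : ℝ := ((k - q + i : ℕ) : ℝ) with hadef
    have ha : ((k - q : ℕ) : ℝ) ≤ a := by rw [hadef]; exact_mod_cast Nat.le_add_right _ _
    have ha' : a ≤ k := by rw [hadef]; exact_mod_cast (by omega : k - q + i ≤ k)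
    have hkN : (k : ℝ) / N ≤ 1 := by
      rw [div_le_one hN]
      have : (k : ℝ) ≤ m := by exact_mod_cast hkm
      simp only [N]; linarith
    have e : a / N * (2 - a / N) * (N * mom K) = a * (2 - a / N) * mom K := by
      field_simp
    rw [e] at hs
    have hA : A ≤ a * (2 - a / N) * mom K := by
      refine mul_le_mul_of_nonneg_right (mul_le_mul ha ?_ (by linarith) ?_) (mom_nonneg K)
      · have := div_le_div_of_nonneg_right ha' hN.le
        linarith
      · exact le_trans (Nat.cast_nonneg _) ha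
    linarith
  have h := Finset.sum_le_sum (s := Finset.range (q + 1)) fun i hi =>
    key i (Nat.lt_succ_iff.mp (Finset.mem_range.mp hi))
  rw [Finset.sum_add_distrib, Finset.sum_const, Finset.sum_const, ← Finset.mul_sum,
    Finset.sum_range_sub' (fun i => zeta K (k - q - 1 + i))] at h
  simp only [Finset.card_range, nsmul_eq_mul, add_zero] at h
  push_cast at h
  have := zeta_nonneg K (k - q - 1 + (q + 1))
  nlinarith

/-- In high dimension the sums of the largest moduli are at least those of a uniform vector. -/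
theorem phi_lb {K : Set (Fin (m + 1) → ℝ)} (hK : One K) (hm : 100000000000000 ≤ m + 1) {k : ℕ}
    (hk : k ≤ m + 1) :
    (249 / 250 : ℝ) * mom K * (k * (2 - k / ((m : ℝ) + 1))) ≤ phi K k := by
  set N : ℝ := (m : ℝ) + 1 with hN
  set q : ℕ := (m + 1) / 250000 with hq
  have hN0 : (100000000000000 : ℝ) ≤ N := by
    rw [hN]; exact_mod_cast hm
  have hNp : 0 < N := by linarith
  have hM := mom_nonneg K
  have hq1 : 250000 * (q : ℝ) ≤ N := by
    rw [hN]; exact_mod_cast (by omega : 250000 * q ≤ m + 1)
  have hq2 : N ≤ 250000 * ((q : ℝ) + 1) := by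
    rw [hN]; exact_mod_cast (by omega : m + 1 ≤ 250000 * (q + 1))
  have big : ∀ j, 1000 * q ≤ j → j ≤ m + 1 →
      (499 / 500 : ℝ) * mom K * (j * (2 - j / N)) ≤ phi K j := by
    intro j hj1 hj2
    have hjN : (j : ℝ) / N ≤ 1 := by
      rw [div_le_one hNp, hN]; exact_mod_cast hj2
    have hj0 : (0 : ℝ) ≤ j := Nat.cast_nonneg _
    rcases eq_or_lt_of_le hj2 with rfl | hlt
    · rw [phi_all hK]
      have : ((m + 1 : ℕ) : ℝ) = N := by simp [hN]
      rw [this, div_self hNp.ne']
      have := mul_nonneg hM hNp.le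
      linarith
    · have hqpos : 1 ≤ q := by omega
      have h := window hK (q := q) (k := j) (by omega) (by omega)
      set a : ℝ := ((j - q : ℕ) : ℝ) with hadef
      have hae : a = (j : ℝ) - q := by rw [hadef, Nat.cast_sub (by omega)]
      have hj1' : 1000 * (q : ℝ) ≤ j := by exact_mod_cast hj1
      have hz : a * zeta K (j - q - 1) ≤ N * mom K := by
        rw [hN, ← phi_all hK, phi_eq_sum hK]
        refine le_trans ?_ (Finset.sum_le_sum_of_subset_of_nonneg
          (Finset.range_mono (show j - q ≤ m + 1 by omega)) fun i _ _ => zeta_nonneg K i)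
        rw [hadef]
        calc ((j - q : ℕ) : ℝ) * zeta K (j - q - 1) = ∑ _i ∈ Finset.range (j - q), zeta K (j - q - 1) := by
              simp
          _ ≤ _ := Finset.sum_le_sum fun i hi => zeta_antitone hK (by
              have := Finset.mem_range.mp hi
              omega)
      have ha : N / 251 ≤ a := by rw [hae]; linarith
      have hz' : zeta K (j - q - 1) ≤ 251 * mom K := by
        have h0 := zeta_nonneg K (j - q - 1)
        have := mul_le_mul_of_nonneg_right ha h0
        refine le_of_mul_le_mul_left ?_ hNp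
        linarith
      have hphi : a * (2 - j / N) * mom K ≤ phi K j + 250000 * 502 * mom K := by
        have hzz : 2 * N * zeta K (j - q - 1) ≤ ((q : ℝ) + 1) * (250000 * 502 * mom K) := by
          have := mul_le_mul_of_nonneg_left hz' (by linarith : 0 ≤ 2 * N)
          have := mul_le_mul_of_nonneg_right hq2 (by linarith : 0 ≤ 502 * mom K)
          linarith
        by_contra hc
        have := mul_lt_mul_of_pos_left (not_le.mp hc) (by positivity : 0 < (q : ℝ) + 1)
        linarith
      have h2 : (j : ℝ) * 999 / 1000 ≤ a := by rw [hae]; linarith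
      have h3 := mul_le_mul_of_nonneg_right
        (mul_le_mul_of_nonneg_right h2 (by linarith : 0 ≤ 2 - (j : ℝ) / N)) hM
      have h4 : 250000 * 502 * mom K ≤ (1 / 1000 : ℝ) * j * mom K :=
        mul_le_mul_of_nonneg_right (by linarith) hM
      have h5 : (1 / 1000 : ℝ) * j * mom K ≤ 1 / 1000 * (j * (2 - j / N)) * mom K := by
        refine mul_le_mul_of_nonneg_right ?_ hM
        have := le_mul_of_one_le_right hj0 (by linarith : (1 : ℝ) ≤ 2 - j / N)
        linarith
      linarith
  rcases le_or_gt (1000 * q) k with h | h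
  · refine le_trans ?_ (big k h hk)
    have : (k : ℝ) / N ≤ 1 := by rw [div_le_one hNp, hN]; exact_mod_cast hk
    have : 0 ≤ mom K * ((k : ℝ) * (2 - k / N)) :=
      mul_nonneg hM (mul_nonneg (Nat.cast_nonneg _) (by linarith))
    linarith
  · have hb := big (1000 * q) le_rfl (by omega)
    have hqN : ((1000 * q : ℕ) : ℝ) / N ≤ 1 / 250 := by
      rw [div_le_iff₀ hNp]; push_cast; linarith
    have hl : (0 : ℝ) < ((1000 * q : ℕ) : ℝ) := by exact_mod_cast (by omega : 0 < 1000 * q)
    have hav := avg_antitone (zeta_antitone hK) h.le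
    rw [← phi_eq_sum hK, ← phi_eq_sum hK] at hav
    have hk0 : (0 : ℝ) ≤ k := Nat.cast_nonneg _
    have := mul_le_mul_of_nonneg_left hb hk0
    have key : (499 / 500 : ℝ) * mom K * ((k : ℝ) * (2 - ((1000 * q : ℕ) : ℝ) / N)) ≤ phi K k := by
      by_contra hc
      have := mul_lt_mul_of_pos_left (not_le.mp hc) hl
      linarith
    have hkN : 0 ≤ (k : ℝ) / N := by positivity
    have hMk := mul_nonneg hM hk0
    linarith [mul_le_mul_of_nonneg_left hqN hMk, mul_nonneg hMk hkN]

end Vale.Agent.P254.OneSym
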