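import Vale.Agent.P254.OneSym.Sort

/-!
P254: the fibre inequalities for bodies invariant under permutations and sign changes of the
coordinates.
-/

open MeasureTheory Set
open scoped Finset

namespace Vale.Agent.P254.OneSym

variable {n m : ℕ}

/-- Compact convex, with interior, invariant under permutations and sign changes of coordinates. -/
structure One (K : Set (Fin n → ℝ)) : Prop where
  cpt : IsCompact K
  cvx : Convex ℝ K
  ne : (interior K).Nonempty
  perm : ∀ σ : Equiv.Perm (Fin n), ∀ x ∈ K, (fun i => x (σ i)) ∈ K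
  flip : ∀ i : Fin n, ∀ x ∈ K, Function.update x i (-x i) ∈ K

/-- Moduli of the coordinates. -/
def av (x : Fin n → ℝ) : Fin n → ℝ := fun i => |x i|

lemma measurable_av : Measurable (av (n := n)) :=
  measurable_pi_lambda _ fun i => (measurable_pi_apply i).abs

lemma One.vol_pos {K : Set (Fin n → ℝ)} (hK : One K) : 0 < volume.real K :=
  ENNReal.toReal_pos (Measure.measure_pos_of_nonempty_interior volume hK.ne).ne'
    hK.cpt.measure_ne_top

lemma One.bdd {K : Set (Fin n → ℝ)} (hK : One K) :
    ∃ R, 0 < R ∧ ∀ x ∈ K, ∀ i, |x i| ≤ R := by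
  obtain ⟨R, hR, h⟩ := hK.cpt.isBounded.exists_pos_norm_le
  exact ⟨R, hR, fun x hx i => (norm_le_pi_norm x i).trans (h x hx)⟩

lemma integrableOn_bdd {K : Set (Fin n → ℝ)} (hK : IsCompact K) {F : (Fin n → ℝ) → ℝ}
    (hF : Measurable F) {C : ℝ} (hC : ∀ x ∈ K, |F x| ≤ C) : IntegrableOn F K :=
  Measure.integrableOn_of_bounded hK.measure_ne_top hF.aestronglyMeasurable (M := C)
    ((ae_restrict_mem hK.measurableSet).mono fun x hx => hC x hx)

lemma One.integral_perm {K : Set (Fin n → ℝ)} (hK : One K) (σ : Equiv.Perm (Fin n))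
    (F : (Fin n → ℝ) → ℝ) : ∫ x in K, F (fun i => x (σ i)) = ∫ x in K, F x := by
  let e := MeasurableEquiv.piCongrLeft (fun _ : Fin n => ℝ) σ.symm
  have he : ∀ x, e x = fun i => x (σ i) := fun x => by
    funext i
    have := MeasurableEquiv.piCongrLeft_apply_apply (β := fun _ : Fin n => ℝ) σ.symm x (σ i)
    simpa [e] using this
  have hpre : e ⁻¹' K = K := by
    ext x
    show e x ∈ K ↔ x ∈ K
    rw [he]
    refine ⟨fun h => ?_, hK.perm σ x⟩
    simpa using hK.perm σ⁻¹ _ h
  have := (volume_measurePreserving_piCongrLeft (fun _ : Fin n => ℝ) σ.symm).setIntegral_preimage_emb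
    e.measurableEmbedding F K
  rw [hpre] at this
  simpa [← he] using this

/-- Integrals over symmetric fibres. -/
lemma fibre {K : Set (Fin (m + 1) → ℝ)} (hK : One K) {F : (Fin (m + 1) → ℝ) → ℝ}
    (hF : Measurable F) {C : ℝ} (hC : ∀ x ∈ K, |F x| ≤ C)
    (hf : ∀ (q : Fin m → ℝ) (b : ℝ), 0 ≤ b → 0 ≤ ∫ u in Icc (-b) b, F (Fin.cons u q)) :
    0 ≤ ∫ x in K, F x := by
  set e := MeasurableEquiv.piFinSuccAbove (fun _ : Fin (m + 1) => ℝ) 0
  have mp := (volume_preserving_piFinSuccAbove (fun _ : Fin (m + 1) => ℝ) 0).symm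
  have hes : ∀ p : ℝ × (Fin m → ℝ), e.symm p = Fin.cons p.1 p.2 := fun p => by
    simp [e, MeasurableEquiv.piFinSuccAbove, Fin.consEquiv]
  have hint : Integrable (K.indicator F) :=
    (integrable_indicator_iff hK.cpt.measurableSet).mpr (integrableOn_bdd hK.cpt hF hC)
  rw [← integral_indicator hK.cpt.measurableSet, ← mp.integral_comp' (K.indicator F),
    Measure.volume_eq_prod]
  have hint' := (mp.integrable_comp_emb e.symm.measurableEmbedding).mpr hint
  rw [Measure.volume_eq_prod] at hint'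
  rw [integral_prod_symm (fun z => K.indicator F (e.symm z)) hint']
  refine integral_nonneg fun q => ?_
  simp only [hes]
  set S := {u : ℝ | Fin.cons u q ∈ K}
  have hcont : Continuous fun u : ℝ => (Fin.cons u q : Fin (m + 1) → ℝ) :=
    continuous_pi fun j => by
      refine Fin.cases ?_ (fun k => ?_) j
      · simpa using continuous_id'
      · simpa using continuous_const
  have hS : IsCompact S :=
    (hK.cpt.image (continuous_apply 0)).of_isClosed_subset (hK.cpt.isClosed.preimage hcont)
      fun u hu => ⟨_, hu, by simp⟩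
  have e0 : ∀ u, K.indicator F (Fin.cons u q) = S.indicator (fun v => F (Fin.cons v q)) u :=
    fun u => by
      by_cases h : Fin.cons u q ∈ K
      · rw [Set.indicator_of_mem h, Set.indicator_of_mem (show u ∈ S from h)]
      · rw [Set.indicator_of_notMem h, Set.indicator_of_notMem (show u ∉ S from h)]
  simp only [e0]
  show 0 ≤ ∫ u, _
  rw [integral_indicator hS.measurableSet]
  rcases S.eq_empty_or_nonempty with h | h
  · simp [h]
  · set b := sSup S
    have hb : b ∈ S := hS.sSup_mem h
    have hneg : ∀ u ∈ S, -u ∈ S := fun u hu => by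
      have := hK.flip 0 _ hu
      rw [Fin.cons_zero, Fin.update_cons_zero] at this
      exact this
    have hb0 : 0 ≤ b := by
      have h1 := le_csSup hS.bddAbove hb
      have h2 := le_csSup hS.bddAbove (hneg b hb)
      linarith
    have : S = Icc (-b) b := by
      ext u
      refine ⟨fun hu => ⟨by linarith [le_csSup hS.bddAbove (hneg u hu)],
        le_csSup hS.bddAbove hu⟩, fun hu => ?_⟩
      rcases eq_or_lt_of_le hb0 with h0 | h0
      · rw [show u = b by linarith [hu.1, hu.2]]; exact hb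
      · have hm := hK.cvx (hneg b hb) hb (show 0 ≤ (b - u) / (2 * b) from
          div_nonneg (by linarith [hu.2]) (by linarith))
          (show 0 ≤ (u + b) / (2 * b) from div_nonneg (by linarith [hu.1]) (by linarith))
          (by field_simp; ring)
        show Fin.cons u q ∈ K
        convert hm using 1
        funext j
        refine Fin.cases ?_ (fun k => ?_) j
        · simp; field_simp; ring
        · simp; field_simp; ring
    rw [this]
    exact hf q b hb0

lemma int_abs {g : ℝ → ℝ} {b : ℝ} (hb : 0 ≤ b) (hg : IntegrableOn (fun u => g |u|) (Icc (-b) b)) :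
    ∫ u in Icc (-b) b, g |u| = 2 * ∫ u in (0 : ℝ)..b, g u := by
  have hi : ∀ s t, -b ≤ s → s ≤ t → t ≤ b → IntervalIntegrable (fun u => g |u|) volume s t := by
    intro s t h1 h2 h3
    exact (intervalIntegrable_iff_integrableOn_Icc_of_le h2).mpr
      (hg.mono_set (Icc_subset_Icc h1 h3))
  rw [integral_Icc_eq_integral_Ioc, ← intervalIntegral.integral_of_le (by linarith),
    ← intervalIntegral.integral_add_adjacent_intervals (hi (-b) 0 le_rfl (by linarith) hb)
      (hi 0 b (by linarith) hb le_rfl)]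
  have e1 : ∫ u in (0 : ℝ)..b, g |u| = ∫ u in (0 : ℝ)..b, g u :=
    intervalIntegral.integral_congr fun u hu => by
      rw [uIcc_of_le hb] at hu
      show g |u| = g u
      rw [abs_of_nonneg hu.1]
  have e2 : ∫ u in (-b)..0, g |u| = ∫ u in (0 : ℝ)..b, g u := by
    rw [← e1]
    have := intervalIntegral.integral_comp_neg (fun u => g |u|) (a := 0) (b := b)
    simpa using this.symm
  rw [e1, e2]; ring

lemma int_ramp {τ b : ℝ} (hτ : 0 ≤ τ) (hb : 0 ≤ b) :
    ∫ u in (0 : ℝ)..b, max (u - τ) 0 = max (b - τ) 0 ^ 2 / 2 := by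
  rcases le_total b τ with h | h
  · rw [max_eq_right (by linarith), intervalIntegral.integral_congr (g := fun _ => (0 : ℝ))
      fun u hu => by
        rw [uIcc_of_le hb] at hu
        exact max_eq_right (by linarith [hu.2])]
    simp
  · have hc : Continuous fun u : ℝ => max (u - τ) 0 := by fun_prop
    rw [← intervalIntegral.integral_add_adjacent_intervals (hc.intervalIntegrable 0 τ)
      (hc.intervalIntegrable τ b), intervalIntegral.integral_congr (a := 0) (g := fun _ => (0 : ℝ))
      fun u hu => by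
        rw [uIcc_of_le hτ] at hu
        exact max_eq_right (by linarith [hu.2]),
      intervalIntegral.integral_congr (a := τ) (g := fun u => u - τ)
      fun u hu => by
        rw [uIcc_of_le h] at hu
        exact max_eq_left (by linarith [hu.1])]
    rw [max_eq_left (by linarith)]
    simp
    ring

lemma int_step {τ b : ℝ} (hτ : 0 ≤ τ) (hb : 0 ≤ b) :
    ∫ u in (0 : ℝ)..b, (Ioi τ).indicator (fun _ => (1 : ℝ)) u = max (b - τ) 0 ∧
    ∫ u in (0 : ℝ)..b, (Ici τ).indicator (fun _ => (1 : ℝ)) u = max (b - τ) 0 := by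
  have hI : ∫ u in (0 : ℝ)..b, (Ioi τ).indicator (fun _ => (1 : ℝ)) u = max (b - τ) 0 := by
    rw [intervalIntegral.integral_of_le hb, setIntegral_indicator measurableSet_Ioi,
      setIntegral_const, smul_eq_mul, mul_one, Ioc_inter_Ioi, Real.volume_real_Ioc]
    congr 2
    exact max_eq_right hτ
  refine ⟨hI, ?_⟩
  rw [← hI]
  refine intervalIntegral.integral_congr_ae ?_
  filter_upwards [Measure.ae_ne volume τ] with u hu _
  by_cases h : τ < u
  · rw [Set.indicator_of_mem (show u ∈ Ici τ from h.le), Set.indicator_of_mem (show u ∈ Ioi τ from h)]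
  · have : u < τ := lt_of_le_of_ne (not_lt.mp h) hu
    rw [Set.indicator_of_notMem (show u ∉ Ioi τ from h),
      Set.indicator_of_notMem (show u ∉ Ici τ from fun e => this.not_ge e)]

/-- The first test function. -/
noncomputable def f1 (τ a : ℝ) : ℝ :=
  max (a - τ) 0 + τ / 2 + τ / 2 * (Ioi τ).indicator (fun _ => (1 : ℝ)) a - a

/-- The second test function. -/
noncomputable def f2 (p τ a : ℝ) : ℝ :=
  max (a - τ) 0 + p ^ 2 / 2 * τ - (p + p ^ 2 / 2) * τ * (Ici τ).indicator (fun _ => (1 : ℝ)) a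

lemma measurable_f {α : Type*} [MeasurableSpace α] {t a : α → ℝ} (ht : Measurable t)
    (ha : Measurable a) (p : ℝ) :
    Measurable (fun x => f1 (t x) (a x)) ∧ Measurable fun x => f2 p (t x) (a x) := by
  have hmax : Measurable fun x => max (a x - t x) 0 := (ha.sub ht).max measurable_const
  have h1 : Measurable fun x => (Ioi (t x)).indicator (fun _ => (1 : ℝ)) (a x) :=
    Measurable.ite (measurableSet_lt ht ha) measurable_const measurable_const
  have h2 : Measurable fun x => (Ici (t x)).indicator (fun _ => (1 : ℝ)) (a x) :=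
    Measurable.ite (measurableSet_le ht ha) measurable_const measurable_const
  exact ⟨((hmax.add (ht.div_const 2)).add ((ht.div_const 2).mul h1)).sub ha,
    (hmax.add (ht.const_mul _)).sub ((ht.const_mul _).mul h2)⟩

lemma f_bound {τ a S p : ℝ} (hτ : 0 ≤ τ) (hτS : τ ≤ S) (ha : 0 ≤ a) (haS : a ≤ S) (hp : 0 ≤ p) :
    |f1 τ a| ≤ (4 + p + p ^ 2) * S ∧ |f2 p τ a| ≤ (4 + p + p ^ 2) * S := by
  have i1 : ∀ A : Set ℝ, 0 ≤ A.indicator (fun _ => (1 : ℝ)) a ∧
      A.indicator (fun _ => (1 : ℝ)) a ≤ 1 := fun A => by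
    by_cases h : a ∈ A <;> simp [h]
  obtain ⟨a0, a1⟩ := i1 (Ioi τ)
  obtain ⟨b0, b1⟩ := i1 (Ici τ)
  have m0 := le_max_right (a - τ) 0
  have m1 : max (a - τ) 0 ≤ S := max_le (by linarith) (by linarith)
  have c0 : 0 ≤ τ / 2 * (Ioi τ).indicator (fun _ => (1 : ℝ)) a := mul_nonneg (by linarith) a0
  have c1 : τ / 2 * (Ioi τ).indicator (fun _ => (1 : ℝ)) a ≤ τ / 2 :=
    mul_le_of_le_one_right (by linarith) a1
  have hw : 0 ≤ (p + p ^ 2 / 2) * τ := by positivity
  have d0 := mul_nonneg hw b0
  have d1 := mul_le_of_le_one_right hw b1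
  have hS : 0 ≤ S := le_trans ha haS
  have hpS : p ^ 2 * τ ≤ p ^ 2 * S := mul_le_mul_of_nonneg_left hτS (sq_nonneg p)
  have hpS' : p * τ ≤ p * S := mul_le_mul_of_nonneg_left hτS hp
  constructor <;>
  · rw [abs_le]
    simp only [f1, f2]
    constructor <;> nlinarith [mul_nonneg (sq_nonneg p) hτ, mul_nonneg hp hτ, mul_nonneg hp hS]

lemma f_fibre {τ b p : ℝ} (hτ : 0 ≤ τ) (hb : 0 ≤ b) (hp : 0 ≤ p) :
    0 ≤ ∫ u in Icc (-b) b, f1 τ |u| ∧ 0 ≤ ∫ u in Icc (-b) b, f2 p τ |u| := by
  have hm := measurable_f (α := ℝ) (t := fun _ => τ) measurable_const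
    (show Measurable fun u : ℝ => |u| from measurable_id.abs) p
  have hg : IntegrableOn (fun u => f1 τ |u|) (Icc (-b) b) ∧
      IntegrableOn (fun u => f2 p τ |u|) (Icc (-b) b) := by
    have hbd : ∀ u ∈ Icc (-b) b, |u| ≤ max b τ := fun u hu =>
      (abs_le.mpr ⟨by linarith [hu.1], hu.2⟩).trans (le_max_left _ _)
    constructor
    · exact Measure.integrableOn_of_bounded measure_Icc_lt_top.ne hm.1.aestronglyMeasurable
        (M := (4 + p + p ^ 2) * max b τ) ((ae_restrict_mem measurableSet_Icc).mono fun u hu =>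
          (f_bound hτ (le_max_right _ _) (abs_nonneg u) (hbd u hu) hp).1)
    · exact Measure.integrableOn_of_bounded measure_Icc_lt_top.ne hm.2.aestronglyMeasurable
        (M := (4 + p + p ^ 2) * max b τ) ((ae_restrict_mem measurableSet_Icc).mono fun u hu =>
          (f_bound hτ (le_max_right _ _) (abs_nonneg u) (hbd u hu) hp).2)
  rw [int_abs hb hg.1, int_abs hb hg.2]
  have k1 : IntervalIntegrable (fun u : ℝ => max (u - τ) 0) volume 0 b :=
    (by fun_prop : Continuous fun u : ℝ => max (u - τ) 0).intervalIntegrable _ _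
  have k2 : IntervalIntegrable ((Ioi τ).indicator fun _ => (1 : ℝ)) volume 0 b :=
    ⟨(intervalIntegrable_const (c := (1 : ℝ))).1.indicator measurableSet_Ioi,
      (intervalIntegrable_const (c := (1 : ℝ))).2.indicator measurableSet_Ioi⟩
  have k3 : IntervalIntegrable ((Ici τ).indicator fun _ => (1 : ℝ)) volume 0 b :=
    ⟨(intervalIntegrable_const (c := (1 : ℝ))).1.indicator measurableSet_Ici,
      (intervalIntegrable_const (c := (1 : ℝ))).2.indicator measurableSet_Ici⟩
  have kc : ∀ c : ℝ, IntervalIntegrable (fun _ : ℝ => c) volume 0 b := fun c =>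
    intervalIntegrable_const
  have ki : IntervalIntegrable (fun u : ℝ => u) volume 0 b :=
    (continuous_id'.intervalIntegrable (μ := volume) _ _)
  obtain ⟨s1, s2⟩ := int_step hτ hb
  simp only [f1, f2]
  rw [intervalIntegral.integral_sub ((k1.add (kc _)).add (k2.const_mul _)) ki,
    intervalIntegral.integral_add (k1.add (kc _)) (k2.const_mul _),
    intervalIntegral.integral_add k1 (kc _),
    intervalIntegral.integral_sub (k1.add (kc _)) (k3.const_mul _),
    intervalIntegral.integral_add k1 (kc _),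
    intervalIntegral.integral_const_mul ((p + p ^ 2 / 2) * τ), intervalIntegral.integral_const_mul (τ / 2),
    s1, s2, int_ramp hτ hb, integral_id, intervalIntegral.integral_const,
    intervalIntegral.integral_const, smul_eq_mul, smul_eq_mul]
  rcases le_total b τ with h | h
  · rw [max_eq_right (by linarith)]
    constructor
    · nlinarith
    · nlinarith [mul_nonneg (mul_nonneg (sq_nonneg p) hτ) hb]
  · rw [max_eq_left (by linarith)]
    constructor
    · nlinarith
    · nlinarith [sq_nonneg (b - τ - p * τ)]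

/-- The threshold made of the other coordinates. -/
noncomputable def thr (k : ℕ) (y : Fin (m + 1) → ℝ) : ℝ := srtN (Fin.tail y) (k - 1)

lemma measurable_srtN {j : ℕ} : Measurable fun y : Fin n → ℝ => srtN y j := by
  unfold srtN
  split_ifs with h
  · exact measurable_srt _
  · exact measurable_const

lemma measurable_top {k : ℕ} : Measurable fun y : Fin n → ℝ => top k y :=
  Finset.measurable_sum _ fun _ _ => measurable_srtN

lemma measurable_thr {k : ℕ} : Measurable (thr (m := m) k) := by
  unfold thr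
  exact measurable_srtN.comp (by unfold Fin.tail; fun_prop)

lemma srtN_le_sum {y : Fin n → ℝ} (h : ∀ i, 0 ≤ y i) (j : ℕ) : srtN y j ≤ ∑ i, y i := by
  unfold srtN
  split_ifs with hj
  · exact srt_le_sum h _
  · exact Finset.sum_nonneg fun i _ => h i

lemma srtN_nonneg {y : Fin n → ℝ} (h : ∀ i, 0 ≤ y i) (j : ℕ) : 0 ≤ srtN y j := by
  unfold srtN
  split_ifs
  · exact srt_nonneg h _
  · exact le_rfl

lemma thr_between {k : ℕ} (hk : 1 ≤ k) (hkm : k ≤ m) (y : Fin (m + 1) → ℝ) (i : Fin (m + 1)) :
    srtN y k ≤ thr k (fun j => y (Equiv.swap 0 i j)) ∧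
      thr k (fun j => y (Equiv.swap 0 i j)) ≤ srtN y (k - 1) := by
  set z := fun j => y (Equiv.swap 0 i j)
  have hc : ∀ t, cnt y t = (if t < y i then 1 else 0) + cnt (Fin.tail z) t := by
    intro t
    simp only [cnt, Finset.card_filter]
    rw [← Equiv.sum_comp (Equiv.swap 0 i) fun j => if t < y j then 1 else 0, Fin.sum_univ_succ]
    simp only [z, Fin.tail, Equiv.swap_apply_left]
    rfl
  rw [thr, srtN_of_lt y (by omega : k < m + 1), srtN_of_lt y (by omega : k - 1 < m + 1),
    srtN_of_lt (Fin.tail z) (by omega : k - 1 < m)]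
  constructor
  · rw [srt_le_iff, hc]
    have h := (srt_le_iff (Fin.tail z) ⟨k - 1, by omega⟩ _).mp le_rfl
    simp only at h ⊢
    split_ifs <;> omega
  · rw [srt_le_iff]
    have h := (srt_le_iff y ⟨k - 1, by omega⟩ _).mp le_rfl
    rw [hc] at h
    simp only at h ⊢
    omega

lemma combine {r N top K0 K1 S1 U P Q Y : ℝ} (hr0 : 0 ≤ r) (hr1 : r < 1) (hN : 0 ≤ N)
    (hd : K1 ≤ K0) (hS : S1 ≤ top - r * N * K0 + N * (K0 - K1)) (hU : U ≤ N * K0)
    (hP : P ≤ r * N * K0) (hQ : r * N * K1 ≤ Q) :
    r * (2 - r) * (S1 + U / 2 + P / 2 - Y) + (1 - r) ^ 2 * (S1 + (r / (1 - r)) ^ 2 / 2 * U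
      - (r / (1 - r) + (r / (1 - r)) ^ 2 / 2) * Q)
      ≤ top + 2 * N * (K0 - K1) - r * (2 - r) * Y := by
  have h1 : (1 : ℝ) - r ≠ 0 := by linarith
  have e : (1 - r) ^ 2 * (S1 + (r / (1 - r)) ^ 2 / 2 * U
      - (r / (1 - r) + (r / (1 - r)) ^ 2 / 2) * Q) =
      (1 - r) ^ 2 * S1 + r ^ 2 / 2 * U - r * (2 - r) / 2 * Q := by
    field_simp
    ring
  rw [e]
  have hw : 0 ≤ r * (2 - r) / 2 := by nlinarith
  have hw1 : r * (2 - r) / 2 * r ≤ 1 := by nlinarith
  have t2 := mul_le_mul_of_nonneg_left hU hr0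
  have t3 := mul_le_mul_of_nonneg_left hP hw
  have t4 := mul_le_mul_of_nonneg_left hQ hw
  have t5 := mul_le_mul_of_nonneg_left hw1 (mul_nonneg hN (sub_nonneg.2 hd))
  linarith

/-- The expected sums of the largest coordinates. -/
theorem top_ineq {K : Set (Fin (m + 1) → ℝ)} (hK : One K) {k : ℕ} (hk : 1 ≤ k) (hkm : k ≤ m) :
    0 ≤ ∫ x in K, (top k (av x) + 2 * ((m : ℝ) + 1) * (srtN (av x) (k - 1) - srtN (av x) k)
      - (k / ((m : ℝ) + 1)) * (2 - k / ((m : ℝ) + 1)) * ∑ i, |x i|) := by
  set N : ℝ := (m : ℝ) + 1 with hN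
  set r : ℝ := k / N with hr
  have hN0 : 0 < N := by positivity
  have hkr : (k : ℝ) = r * N := by rw [hr, div_mul_cancel₀ _ hN0.ne']
  have hr0 : 0 ≤ r := by positivity
  have hr1 : r < 1 := by
    rw [hr, div_lt_one hN0, hN]
    have : (k : ℝ) ≤ m := by exact_mod_cast hkm
    linarith
  set p : ℝ := r / (1 - r) with hp
  have hp0 : 0 ≤ p := div_nonneg hr0 (by linarith)
  obtain ⟨R, hR, hRb⟩ := hK.bdd
  have hav : ∀ x : Fin (m + 1) → ℝ, ∀ i, 0 ≤ av x i := fun x i => abs_nonneg _
  set t : (Fin (m + 1) → ℝ) → ℝ := fun x => thr k (av x)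
  have htm : Measurable t := measurable_thr.comp measurable_av
  have ham : Measurable fun x : Fin (m + 1) → ℝ => |x 0| := (measurable_pi_apply 0).abs
  have ht0 : ∀ x, 0 ≤ t x := fun x => srtN_nonneg (fun j => hav x _) _
  set S : ℝ := N * R
  have htS : ∀ x ∈ K, t x ≤ S := fun x hx => by
    refine (srtN_le_sum (fun j => hav x _) _).trans ?_
    calc ∑ j : Fin m, Fin.tail (av x) j ≤ ∑ _j : Fin m, R := Finset.sum_le_sum fun j _ => hRb x hx _
      _ ≤ S := by simp [S, hN]; nlinarith
  have haS : ∀ x ∈ K, |x 0| ≤ S := fun x hx => (hRb x hx 0).trans (by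
    simp only [S, hN]; nlinarith [Nat.cast_nonneg (α := ℝ) m])
  obtain ⟨hm1, hm2⟩ := measurable_f htm ham p
  have hb : ∀ x ∈ K, abs (f1 (t x) |x 0|) ≤ (4 + p + p ^ 2) * S ∧
      abs (f2 p (t x) |x 0|) ≤ (4 + p + p ^ 2) * S := fun x hx =>
    f_bound (ht0 x) (htS x hx) (abs_nonneg _) (haS x hx) hp0
  have htail : ∀ (q : Fin m → ℝ) u, t (Fin.cons u q) = srtN (fun j => |q j|) (k - 1) := fun q u => by
    simp only [t, thr]
    congr 1
  have e1 : 0 ≤ ∫ x in K, f1 (t x) |x 0| := fibre hK hm1 (fun x hx => (hb x hx).1) fun q b hb' => by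
    simp only [htail, Fin.cons_zero]
    exact (f_fibre (srtN_nonneg (fun j => abs_nonneg (q j)) _) hb' hp0).1
  have e2 : 0 ≤ ∫ x in K, f2 p (t x) |x 0| :=
    fibre hK hm2 (fun x hx => (hb x hx).2) fun q b hb' => by
      simp only [htail, Fin.cons_zero]
      exact (f_fibre (srtN_nonneg (fun j => abs_nonneg (q j)) _) hb' hp0).2
  set w1 := r * (2 - r)
  set w2 := (1 - r) ^ 2
  set G : (Fin (m + 1) → ℝ) → ℝ := fun x => w1 * f1 (t x) |x 0| + w2 * f2 p (t x) |x 0|
  have hGi : IntegrableOn G K :=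
    ((integrableOn_bdd hK.cpt hm1 fun x hx => (hb x hx).1).const_mul w1).add
      ((integrableOn_bdd hK.cpt hm2 fun x hx => (hb x hx).2).const_mul w2)
  have hG : 0 ≤ ∫ x in K, G x := by
    simp only [G]
    rw [integral_add ((integrableOn_bdd hK.cpt hm1 fun x hx => (hb x hx).1).const_mul w1)
      ((integrableOn_bdd hK.cpt hm2 fun x hx => (hb x hx).2).const_mul w2),
      integral_const_mul, integral_const_mul]
    have : 0 ≤ w1 := mul_nonneg hr0 (by linarith)
    positivity
  have hGsum : 0 ≤ ∫ x in K, ∑ i, G fun j => x (Equiv.swap 0 i j) := by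
    rw [integral_finsetSum]
    · exact Finset.sum_nonneg fun i _ => (hK.integral_perm _ G).symm ▸ hG
    · intro i _
      refine integrableOn_bdd hK.cpt ((((hm1.const_mul w1).add (hm2.const_mul w2))).comp
        (by fun_prop : Measurable fun x : Fin (m + 1) → ℝ => fun j => x (Equiv.swap 0 i j)))
        (C := (|w1| + |w2|) * ((4 + p + p ^ 2) * S)) fun x hx => ?_
      obtain ⟨h1, h2⟩ := hb _ (hK.perm (Equiv.swap 0 i) x hx)
      refine (abs_add_le _ _).trans ?_
      rw [abs_mul w1, abs_mul w2, add_mul]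
      exact add_le_add (mul_le_mul_of_nonneg_left h1 (abs_nonneg _))
        (mul_le_mul_of_nonneg_left h2 (abs_nonneg _))
  have hsumi : IntegrableOn (fun x => top k (av x) +
      2 * N * (srtN (av x) (k - 1) - srtN (av x) k) - r * (2 - r) * ∑ i, |x i|) K := by
    refine integrableOn_bdd hK.cpt (((measurable_top.comp measurable_av).add
      (((measurable_srtN.comp measurable_av).sub (measurable_srtN.comp measurable_av)).const_mul _)).sub
      ((Finset.measurable_sum _ fun i _ => (measurable_pi_apply i).abs).const_mul _))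
      (C := ((k : ℝ) + 4 * N + 2) * (N * R)) fun x hx => ?_
    have hs : ∑ i, av x i ≤ N * R := (Finset.sum_le_sum fun i _ => hRb x hx i).trans (by simp [hN])
    have hs0 : 0 ≤ ∑ i, av x i := Finset.sum_nonneg fun i _ => hav x i
    have hj : ∀ j, 0 ≤ srtN (av x) j ∧ srtN (av x) j ≤ N * R := fun j =>
      ⟨srtN_nonneg (hav x) j, (srtN_le_sum (hav x) j).trans hs⟩
    have ht' : 0 ≤ top k (av x) ∧ top k (av x) ≤ k * (N * R) := by
      refine ⟨Finset.sum_nonneg fun j _ => (hj j).1, ?_⟩
      calc top k (av x) ≤ ∑ _j ∈ Finset.range k, N * R := Finset.sum_le_sum fun j _ => (hj j).2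
        _ = k * (N * R) := by simp
    have hw : 0 ≤ r * (2 - r) ∧ r * (2 - r) ≤ 1 :=
      ⟨mul_nonneg hr0 (by linarith), by nlinarith [sq_nonneg (1 - r)]⟩
    show |_| ≤ _
    rw [abs_le]
    have : ∑ i, |x i| = ∑ i, av x i := rfl
    rw [this]
    obtain ⟨p1, p2⟩ := hj (k - 1)
    obtain ⟨q1, q2⟩ := hj k
    constructor <;> nlinarith [mul_le_of_le_one_left hs0 hw.2, mul_nonneg hw.1 hs0]
  refine hGsum.trans (setIntegral_mono_on ?_ hsumi hK.cpt.measurableSet fun x _ => ?_)
  · refine integrable_finsetSum _ fun i _ => ?_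
    have := hK.integral_perm (Equiv.swap 0 i) G
    refine integrableOn_bdd hK.cpt ((((hm1.const_mul w1).add (hm2.const_mul w2))).comp
      (by fun_prop : Measurable fun x : Fin (m + 1) → ℝ => fun j => x (Equiv.swap 0 i j)))
      (C := (|w1| + |w2|) * ((4 + p + p ^ 2) * S)) fun x hx => ?_
    obtain ⟨h1, h2⟩ := hb _ (hK.perm (Equiv.swap 0 i) x hx)
    refine (abs_add_le _ _).trans ?_
    rw [abs_mul w1, abs_mul w2, add_mul]
    exact add_le_add (mul_le_mul_of_nonneg_left h1 (abs_nonneg _))
      (mul_le_mul_of_nonneg_left h2 (abs_nonneg _))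
  · set y := av x
    set T := fun i => thr k (fun j => y (Equiv.swap 0 i j)) with hTdef
    set K0 := srtN y (k - 1)
    set K1 := srtN y k
    have hT : ∀ i, K1 ≤ T i ∧ T i ≤ K0 := thr_between hk hkm y
    have hy : ∀ i, 0 ≤ y i := hav x
    have hK10 : 0 ≤ K1 := srtN_nonneg hy _
    have hd : K1 ≤ K0 := (hT 0).1.trans (hT 0).2
    have c1 : ((Finset.univ.filter fun i => T i < y i).card : ℝ) ≤ k := by
      have h := (srt_le_iff y ⟨k, by omega⟩ K1).mp (srtN_of_lt y (by omega : k < m + 1)).ge
      exact_mod_cast (Finset.card_le_card (fun i hi => by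
        simp only [Finset.mem_filter, Finset.mem_univ, true_and] at hi ⊢
        exact (hT i).1.trans_lt hi)).trans h
    have c2 : (k : ℝ) ≤ ((Finset.univ.filter fun i => T i ≤ y i).card : ℝ) := by
      have h1 : k ≤ (Finset.univ.filter fun i => K0 ≤ y i).card := by
        have e : (Finset.univ.filter fun i => K0 ≤ y i).card =
            (Finset.univ.filter fun j => K0 ≤ srt y j).card := by
          simp only [Finset.card_filter]
          exact (sum_srt y fun a => if K0 ≤ a then 1 else 0).symm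
        rw [e]
        refine le_trans (le_of_eq ?_) (Finset.card_le_card
          (s := Finset.Iic (⟨k - 1, by omega⟩ : Fin (m + 1))) fun j hj => ?_)
        · rw [Fin.card_Iic]; show k = k - 1 + 1; omega
        · simp only [Finset.mem_filter, Finset.mem_univ, true_and]
          simp only [K0, srtN_of_lt y (by omega : k - 1 < m + 1)]
          exact srt_antitone y (Finset.mem_Iic.mp hj)
      exact_mod_cast h1.trans (Finset.card_le_card (fun i hi => by
        simp only [Finset.mem_filter, Finset.mem_univ, true_and] at hi ⊢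
        exact (hT i).2.trans hi))
    have hs1 : ∑ i, max (y i - T i) 0 ≤ top k y - k * K0 + N * (K0 - K1) := by
      have := threshold_le_top hk (by omega : k ≤ m + 1) y
      have h' : ∑ i, max (y i - T i) 0 ≤ ∑ i, (max (y i - K0) 0 + (K0 - K1)) :=
        Finset.sum_le_sum fun i _ => max_le (by linarith [(hT i).1, le_max_left (y i - K0) 0])
          (by linarith [le_max_right (y i - K0) 0])
      rw [Finset.sum_add_distrib, Finset.sum_const, Finset.card_univ, Fintype.card_fin,
        nsmul_eq_mul] at h'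
      push_cast at h'
      rw [← hN] at h'
      linarith
    have hU : ∑ i, T i ≤ N * K0 :=
      (Finset.sum_le_sum fun i _ => (hT i).2).trans (by simp [hN])
    have hP : ∑ i, T i * (Ioi (T i)).indicator (fun _ => (1 : ℝ)) (y i) ≤ k * K0 := by
      have e : ∀ i, T i * (Ioi (T i)).indicator (fun _ => (1 : ℝ)) (y i) ≤
          if T i < y i then K0 else 0 := fun i => by
        by_cases h : T i < y i
        · simp [h, (hT i).2]
        · simp [h]
      refine (Finset.sum_le_sum fun i _ => e i).trans ?_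
      rw [← Finset.sum_filter, Finset.sum_const, nsmul_eq_mul]
      exact mul_le_mul_of_nonneg_right c1 (hK10.trans hd)
    have hQ : k * K1 ≤ ∑ i, T i * (Ici (T i)).indicator (fun _ => (1 : ℝ)) (y i) := by
      have e : ∀ i, (if T i ≤ y i then K1 else 0) ≤
          T i * (Ici (T i)).indicator (fun _ => (1 : ℝ)) (y i) := fun i => by
        by_cases h : T i ≤ y i
        · simp [h, (hT i).1]
        · simp [h]
      refine le_trans ?_ (Finset.sum_le_sum fun i _ => e i)
      rw [← Finset.sum_filter, Finset.sum_const, nsmul_eq_mul]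
      exact mul_le_mul_of_nonneg_right c2 hK10
    have hGi' : ∀ i, (G fun j => x (Equiv.swap 0 i j)) =
        w1 * f1 (T i) (y i) + w2 * f2 p (T i) (y i) := fun i => by
      have e0 : av (fun j => x (Equiv.swap 0 i j)) = fun j => y (Equiv.swap 0 i j) := rfl
      simp only [G, t, e0, T, Equiv.swap_apply_left]
      rfl
    simp only [hGi', Finset.sum_add_distrib, ← Finset.mul_sum]
    have eA : ∑ i, f1 (T i) (y i) = (∑ i, max (y i - T i) 0) + (∑ i, T i) / 2 +
        (∑ i, T i * (Ioi (T i)).indicator (fun _ => (1 : ℝ)) (y i)) / 2 - ∑ i, y i := by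
      simp only [f1, Finset.sum_div, ← Finset.sum_add_distrib, ← Finset.sum_sub_distrib]
      exact Finset.sum_congr rfl fun i _ => by ring
    have eB : ∑ i, f2 p (T i) (y i) = (∑ i, max (y i - T i) 0) + p ^ 2 / 2 * (∑ i, T i) -
        (p + p ^ 2 / 2) * ∑ i, T i * (Ici (T i)).indicator (fun _ => (1 : ℝ)) (y i) := by
      simp only [f2, Finset.mul_sum, ← Finset.sum_add_distrib, ← Finset.sum_sub_distrib]
      exact Finset.sum_congr rfl fun i _ => by ring
    rw [eA, eB]
    rw [hkr] at hs1 hP hQ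
    exact combine hr0 hr1 hN0.le hd hs1 hU hP hQ

end Vale.Agent.P254.OneSym
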