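import Vale.Agent.P254.OneSym.Expect
import Vale.Agent.P074.PL

/-!
P254: sign changes, and the second moment of a coordinate against the first absolute moment.
-/

open MeasureTheory Set
open scoped Finset ENNReal

namespace Vale.Agent.P254.OneSym

variable {n m : ℕ}

lemma One.signs {K : Set (Fin n → ℝ)} (hK : One K) {x y : Fin n → ℝ} (hx : x ∈ K)
    (h : ∀ i, |y i| = |x i|) : y ∈ K := by
  suffices ∀ s : Finset (Fin n), (fun i => if i ∈ s then y i else x i) ∈ K by
    simpa using this Finset.univ
  intro s
  induction s using Finset.induction with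
  | empty => simpa using hx
  | insert a s ha ih =>
    rcases abs_eq_abs.mp (h a) with e | e
    · convert ih using 1
      funext i
      by_cases hi : i = a
      · subst hi; simp [ha, e]
      · simp [hi]
    · convert hK.flip a _ ih using 1
      funext i
      by_cases hi : i = a
      · subst hi; simp [ha, e]
      · simp [hi]

lemma One.integral_flip {K : Set (Fin n → ℝ)} (hK : One K) (i : Fin n)
    (F : (Fin n → ℝ) → ℝ) :
    ∫ x in K, F (Function.update x i (-x i)) = ∫ x in K, F x := by
  let e : (Fin n → ℝ) ≃ᵐ (Fin n → ℝ) := MeasurableEquiv.piCongrRight fun j =>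
    if j = i then MeasurableEquiv.neg ℝ else MeasurableEquiv.refl ℝ
  have he : ∀ x, e x = Function.update x i (-x i) := fun x => by
    funext j
    by_cases hj : j = i
    · subst hj; simp [e, MeasurableEquiv.piCongrRight]
    · simp [e, MeasurableEquiv.piCongrRight, hj]
  have mp : MeasurePreserving e volume volume := by
    refine volume_preserving_pi (fun j => ?_)
    by_cases hj : j = i
    · subst hj; simpa using Measure.measurePreserving_neg (volume : Measure ℝ)
    · simpa [hj] using MeasurePreserving.id (volume : Measure ℝ)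
  have hpre : e ⁻¹' K = K := by
    ext x
    show e x ∈ K ↔ x ∈ K
    rw [he]
    exact ⟨fun h => by simpa using hK.flip i _ h, hK.flip i x⟩
  have := mp.setIntegral_preimage_emb e.measurableEmbedding F K
  rw [hpre] at this
  simpa [← he] using this

/-- The volume of the part of a body beyond a level of the first coordinate. -/
noncomputable def cap (K : Set (Fin (m + 1) → ℝ)) (t : ℝ) : ℝ := volume.real (K ∩ {x | t ≤ x 0})

lemma measurableSet_cap {K : Set (Fin (m + 1) → ℝ)} (hK : One K) (t : ℝ) :
    MeasurableSet (K ∩ {x : Fin (m + 1) → ℝ | t ≤ x 0}) :=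
  hK.cpt.measurableSet.inter (measurableSet_le measurable_const (measurable_pi_apply 0))

lemma cap_mid {K : Set (Fin (m + 1) → ℝ)} (hK : One K) (a b : ℝ) :
    cap K a * cap K b ≤ cap K ((a + b) / 2) ^ 2 := by
  have hm := fun t => measurableSet_cap hK t
  have h := Vale.Agent.P074.pl_pi (m + 1)
    (f := (K ∩ {x | a ≤ x 0}).indicator fun _ => (1 : ℝ≥0∞))
    (g := (K ∩ {x | b ≤ x 0}).indicator fun _ => (1 : ℝ≥0∞))
    (h := (K ∩ {x | (a + b) / 2 ≤ x 0}).indicator fun _ => (1 : ℝ≥0∞))
    (measurable_const.indicator (hm a)) (measurable_const.indicator (hm b))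
    (measurable_const.indicator (hm _)) fun x y => by
      by_cases h1 : x ∈ K ∩ {x | a ≤ x 0}
      · by_cases h2 : y ∈ K ∩ {x | b ≤ x 0}
        · have h3 : (1 / 2 : ℝ) • (x + y) ∈ K ∩ {x | (a + b) / 2 ≤ x 0} := by
            refine ⟨?_, ?_⟩
            · rw [smul_add]
              exact hK.cvx h1.1 h2.1 (by norm_num) (by norm_num) (by norm_num)
            · have u1 : a ≤ x 0 := h1.2
              have u2 : b ≤ y 0 := h2.2
              show (a + b) / 2 ≤ ((1 / 2 : ℝ) • (x + y)) 0
              simp only [Pi.smul_apply, Pi.add_apply, smul_eq_mul]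
              linarith
          rw [indicator_of_mem h1, indicator_of_mem h2, indicator_of_mem h3]
          simp
        · simp [h2]
      · simp [h1]
  rw [lintegral_indicator_const (hm a), lintegral_indicator_const (hm b),
    lintegral_indicator_const (hm _), one_mul, one_mul, one_mul] at h
  have := ENNReal.toReal_mono (ENNReal.pow_ne_top
    ((measure_mono inter_subset_left).trans_lt hK.cpt.measure_lt_top).ne) h
  rw [ENNReal.toReal_mul, ENNReal.toReal_pow] at this
  exact this

lemma cap_nonneg (K : Set (Fin (m + 1) → ℝ)) (t : ℝ) : 0 ≤ cap K t := measureReal_nonneg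

lemma cap_antitone {K : Set (Fin (m + 1) → ℝ)} (hK : One K) : Antitone (cap K) := fun a b h =>
  measureReal_mono (fun x hx => ⟨hx.1, le_trans h hx.2⟩)
    ((measure_mono inter_subset_left).trans_lt hK.cpt.measure_lt_top).ne

lemma cap_mul {K : Set (Fin (m + 1) → ℝ)} (hK : One K) {s t : ℝ} (hs : 0 ≤ s) (ht : 0 ≤ t) :
    cap K (s + t) * cap K 0 ≤ cap K s * cap K t := by
  set u := s + t
  rcases (cap_nonneg K u).eq_or_lt with h0 | h0
  · rw [← h0, zero_mul]; exact mul_nonneg (cap_nonneg K _) (cap_nonneg K _)
  set f : ℝ → ℝ := fun a => cap K a * cap K (u - a)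
  set f0 := f 0 with hf0
  have hpos : 0 < f0 := by
    have : cap K u ≤ cap K 0 := cap_antitone hK (by linarith)
    simp only [hf0, f, sub_zero]
    nlinarith
  have hsym : ∀ a, f (u - a) = f a := fun a => by simp only [f, sub_sub_cancel]; ring
  set c := cap K u ^ 2 / f0
  have hc : 0 < c := by positivity
  have low : ∀ a ∈ Icc 0 u, c ≤ f a / f0 := fun a ha => by
    refine div_le_div_of_nonneg_right ?_ hpos.le
    rw [sq]
    exact mul_le_mul (cap_antitone hK ha.2) (cap_antitone hK (by linarith [ha.1]))
      (cap_nonneg K _) (cap_nonneg K _)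
  have stepA : ∀ a, f 0 * f (2 * a) ≤ f a ^ 2 := fun a => by
    have h1 := cap_mid hK 0 (2 * a)
    have h2 := cap_mid hK (u - 0) (u - 2 * a)
    rw [show (0 + 2 * a) / 2 = a by ring] at h1
    rw [show (u - 0 + (u - 2 * a)) / 2 = u - a by ring] at h2
    have := mul_le_mul h1 h2 (mul_nonneg (cap_nonneg K _) (cap_nonneg K _)) (sq_nonneg _)
    simp only [f]
    linarith
  have hk : ∀ k : ℕ, ∀ a ∈ Icc 0 u, c ≤ (f a / f0) ^ (2 ^ k) := by
    intro k
    induction k with
    | zero => intro a ha; simpa using low a ha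
    | succ k ih =>
      intro a ha
      obtain ⟨b, hb, hfb⟩ : ∃ b ∈ Icc 0 u, f b / f0 ≤ (f a / f0) ^ 2 := by
        rcases le_total (2 * a) u with h | h
        · refine ⟨2 * a, ⟨by linarith [ha.1], h⟩, ?_⟩
          rw [div_pow, div_le_div_iff₀ hpos (by positivity), sq f0]
          have := mul_le_mul_of_nonneg_right (stepA a) hpos.le
          linarith
        · refine ⟨2 * (u - a), ⟨by linarith [ha.2], by linarith⟩, ?_⟩
          rw [div_pow, div_le_div_iff₀ hpos (by positivity), sq f0]
          have := mul_le_mul_of_nonneg_right (stepA (u - a)) hpos.le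
          rw [hsym a] at this
          linarith
      rw [pow_succ', pow_mul]
      refine (ih b hb).trans (pow_le_pow_left₀ ?_ hfb _)
      exact div_nonneg (mul_nonneg (cap_nonneg K _) (cap_nonneg K _)) hpos.le
  have hsu : s ∈ Icc 0 u := ⟨hs, by linarith⟩
  have hge : 1 ≤ f s / f0 := by
    by_contra hlt
    have hr : 0 ≤ f s / f0 := hc.le.trans (low s hsu)
    obtain ⟨k, hk'⟩ := exists_pow_lt_of_lt_one hc (not_le.mp hlt)
    have := (hk k s hsu).trans (pow_le_pow_of_le_one hr (not_le.mp hlt).le Nat.lt_two_pow_self.le)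
    linarith
  rw [le_div_iff₀ hpos, one_mul] at hge
  simp only [hf0, f, sub_zero, show u - s = t by simp [u]] at hge
  linarith

lemma cap_eq {K : Set (Fin (m + 1) → ℝ)} (hK : One K) (t : ℝ) :
    cap K t = ∫ x in K, (Iic (x 0)).indicator (fun _ => (1 : ℝ)) t := by
  have e : ∀ x : Fin (m + 1) → ℝ, (Iic (x 0)).indicator (fun _ => (1 : ℝ)) t =
      ({y : Fin (m + 1) → ℝ | t ≤ y 0}).indicator (fun _ => (1 : ℝ)) x := fun x => by
    by_cases h : t ≤ x 0 <;> simp [h]
  simp only [e]
  rw [setIntegral_indicator (measurableSet_le measurable_const (measurable_pi_apply 0)),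
    setIntegral_const, smul_eq_mul, mul_one, cap]

lemma swap_bdd {K : Set (Fin (m + 1) → ℝ)} (hK : One K) (R : ℝ) {g : ℝ → (Fin (m + 1) → ℝ) → ℝ}
    (hg : Measurable (Function.uncurry g)) {C : ℝ}
    (hC : ∀ t ∈ Ioc 0 R, ∀ x ∈ K, |g t x| ≤ C) :
    ∫ t in Ioc (0 : ℝ) R, ∫ x in K, g t x = ∫ x in K, ∫ t in Ioc (0 : ℝ) R, g t x := by
  apply integral_integral_swap
  rw [Measure.prod_restrict]
  refine Measure.integrableOn_of_bounded ?_ hg.aestronglyMeasurable (M := C)
    ((ae_restrict_mem (measurableSet_Ioc.prod hK.cpt.measurableSet)).mono fun p hp =>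
      hC p.1 hp.1 p.2 hp.2)
  rw [Measure.prod_prod]
  exact (ENNReal.mul_lt_top measure_Ioc_lt_top hK.cpt.measure_lt_top).ne

lemma ramp_int {R a s : ℝ} (hR : 0 ≤ R) (hs : 0 ≤ s) (ha : a ≤ R) :
    ∫ t in Ioc (0 : ℝ) R, (Iic a).indicator (fun _ => (1 : ℝ)) (s + t) = max (a - s) 0 := by
  have e : ∀ t, (Iic a).indicator (fun _ => (1 : ℝ)) (s + t) =
      (Iic (a - s)).indicator (fun _ => (1 : ℝ)) t := fun t => by
    by_cases h : s + t ≤ a
    · simp [h, show t ≤ a - s by linarith]
    · simp [h, show ¬t ≤ a - s by intro h'; exact h (by linarith)]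
  simp only [e]
  rw [setIntegral_indicator measurableSet_Iic, setIntegral_const, smul_eq_mul, mul_one,
    Ioc_inter_Iic, Real.volume_real_Ioc, min_eq_right (by linarith), sub_zero]

lemma ramp_int' {R a : ℝ} (hR : 0 ≤ R) (ha : a ≤ R) :
    ∫ s in Ioc (0 : ℝ) R, max (a - s) 0 = max a 0 ^ 2 / 2 := by
  rw [← intervalIntegral.integral_of_le hR]
  have h := intervalIntegral.integral_comp_sub_left (fun u => max u 0) a (a := (0 : ℝ)) (b := R)
  rw [h, sub_zero]
  have hc : Continuous fun u : ℝ => max u 0 := by fun_prop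
  rw [← intervalIntegral.integral_add_adjacent_intervals (hc.intervalIntegrable (a - R) 0)
    (hc.intervalIntegrable 0 a)]
  have e1 : ∫ u in (a - R)..0, max u 0 = 0 := by
    rw [intervalIntegral.integral_congr (g := fun _ => (0 : ℝ)) fun u hu => by
      rw [uIcc_of_le (by linarith)] at hu
      exact max_eq_right hu.2]
    simp
  rw [e1, zero_add]
  rcases le_total 0 a with h0 | h0
  · rw [intervalIntegral.integral_congr (g := fun u => u) fun u hu => by
      rw [uIcc_of_le h0] at hu
      exact max_eq_left hu.1, integral_id, max_eq_left h0]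
    ring
  · rw [intervalIntegral.integral_congr (g := fun _ => (0 : ℝ)) fun u hu => by
      rw [uIcc_of_ge h0] at hu
      exact max_eq_right hu.2, max_eq_right h0]
    simp

/-- The second moment of a coordinate is at most twice the square of the first absolute moment. -/
theorem second_le {K : Set (Fin (m + 1) → ℝ)} (hK : One K) :
    (∫ x in K, x 0 ^ 2) * volume.real K ≤ 2 * mom K ^ 2 := by
  obtain ⟨R, hR, hRb⟩ := hK.bdd
  have hx0 : ∀ x ∈ K, x 0 ≤ R := fun x hx => (le_abs_self _).trans (hRb x hx 0)
  have hmeas : ∀ s : ℝ, Measurable (Function.uncurry fun (t : ℝ) (x : Fin (m + 1) → ℝ) =>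
      (Iic (x 0)).indicator (fun _ => (1 : ℝ)) (s + t)) := fun s =>
    Measurable.ite (measurableSet_le (measurable_fst.const_add s)
      ((measurable_pi_apply 0).comp measurable_snd)) measurable_const measurable_const
  have hind : ∀ (s t : ℝ) (x : Fin (m + 1) → ℝ),
      |(Iic (x 0)).indicator (fun _ => (1 : ℝ)) (s + t)| ≤ 1 := fun s t x => by
    by_cases h : s + t ≤ x 0 <;> simp [h]
  have H1 : ∀ s, 0 ≤ s → ∫ t in Ioc (0 : ℝ) R, cap K (s + t) = ∫ x in K, max (x 0 - s) 0 := by
    intro s hs
    simp only [cap_eq hK]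
    rw [swap_bdd hK R (hmeas s) fun t _ x _ => hind s t x]
    exact setIntegral_congr_fun hK.cpt.measurableSet fun x hx => ramp_int hR.le hs (hx0 x hx)
  have H2 : ∫ s in Ioc (0 : ℝ) R, ∫ x in K, max (x 0 - s) 0 = ∫ x in K, max (x 0) 0 ^ 2 / 2 := by
    rw [swap_bdd hK R (g := fun s x => max (x 0 - s) 0)
      (show Measurable fun p : ℝ × (Fin (m + 1) → ℝ) => max (p.2 0 - p.1) 0 by fun_prop)
      (C := R) fun t ht x hx => by
        rw [abs_of_nonneg (le_max_right _ _)]
        exact max_le (by linarith [ht.1, hx0 x hx]) hR.le]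
    exact setIntegral_congr_fun hK.cpt.measurableSet fun x hx => ramp_int' hR.le (hx0 x hx)
  have icap : ∀ s, IntegrableOn (fun t => cap K (s + t)) (Ioc (0 : ℝ) R) := fun s => by
    have : Antitone fun t => cap K (s + t) := fun a b h => cap_antitone hK (by linarith)
    exact (this.intervalIntegrable (μ := volume) (a := (0 : ℝ)) (b := R)).1
  have h0 : ∫ t in Ioc (0 : ℝ) R, cap K t = ∫ x in K, max (x 0) 0 := by
    have := H1 0 le_rfl
    simpa using this
  have hmain : (∫ x in K, max (x 0) 0 ^ 2 / 2) * cap K 0 ≤ (∫ x in K, max (x 0) 0) ^ 2 := by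
    rw [← H2, ← h0, sq, ← integral_mul_const, ← integral_mul_const]
    refine setIntegral_mono_on ?_ ?_ measurableSet_Ioc fun s hs => ?_
    · have hc : Antitone fun s => (∫ x in K, max (x 0 - s) 0) * cap K 0 := fun a b h =>
        mul_le_mul_of_nonneg_right (setIntegral_mono
          ((by fun_prop : Continuous fun x : Fin (m + 1) → ℝ => max (x 0 - b) 0).continuousOn.integrableOn_compact hK.cpt)
          ((by fun_prop : Continuous fun x : Fin (m + 1) → ℝ => max (x 0 - a) 0).continuousOn.integrableOn_compact hK.cpt)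
          fun x => max_le_max (by linarith) le_rfl) (cap_nonneg K 0)
      exact (hc.intervalIntegrable (μ := volume) (a := (0 : ℝ)) (b := R)).1
    · have := (icap 0).mul_const (∫ t in Ioc (0 : ℝ) R, cap K t)
      simp only [zero_add] at this
      exact this
    · rw [← H1 s hs.1.le, ← integral_mul_const, ← integral_const_mul]
      exact setIntegral_mono_on ((icap s).mul_const _) 
        (by have := (icap 0).const_mul (cap K s); simp only [zero_add] at this; exact this)
        measurableSet_Ioc fun t ht => cap_mul hK hs.1.le ht.1.le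
  have ifl := fun F => hK.integral_flip 0 F
  have c1 : Continuous fun x : Fin (m + 1) → ℝ => max (x 0) 0 := by fun_prop
  have c2 : Continuous fun x : Fin (m + 1) → ℝ => max (-x 0) 0 := by fun_prop
  have i1 : ∫ x in K, max (x 0) 0 = mom K / 2 := by
    have e := ifl fun x => max (x 0) 0
    simp only [Function.update_self] at e
    have s : ∫ x in K, |x 0| = ∫ x in K, (max (x 0) 0 + max (-x 0) 0) := by
      congr 1; funext x
      rcases le_total 0 (x 0) with h | h
      · rw [abs_of_nonneg h, max_eq_left h, max_eq_right (by linarith), add_zero]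
      · rw [abs_of_nonpos h, max_eq_right h, max_eq_left (by linarith), zero_add]
    rw [integral_add (c1.continuousOn.integrableOn_compact hK.cpt)
      (c2.continuousOn.integrableOn_compact hK.cpt), e] at s
    simp only [mom, s]; ring
  have i2 : ∫ x in K, max (x 0) 0 ^ 2 / 2 = (∫ x in K, x 0 ^ 2) / 4 := by
    have e := ifl fun x => max (x 0) 0 ^ 2
    simp only [Function.update_self] at e
    have s : ∫ x in K, x 0 ^ 2 = ∫ x in K, (max (x 0) 0 ^ 2 + max (-x 0) 0 ^ 2) := by
      congr 1; funext x
      rcases le_total 0 (x 0) with h | h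
      · rw [max_eq_left h, max_eq_right (by linarith)]; ring
      · rw [max_eq_right h, max_eq_left (by linarith)]; ring
    rw [integral_add (f := fun x : Fin (m + 1) → ℝ => max (x 0) 0 ^ 2)
      (g := fun x : Fin (m + 1) → ℝ => max (-x 0) 0 ^ 2)
      ((c1.pow 2).continuousOn.integrableOn_compact hK.cpt)
      ((c2.pow 2).continuousOn.integrableOn_compact hK.cpt), e] at s
    rw [integral_div, s]; ring
  have i3 : volume.real K ≤ 2 * cap K 0 := by
    have e := ifl fun x => (Iic (x 0)).indicator (fun _ => (1 : ℝ)) 0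
    simp only [Function.update_self, ← cap_eq hK] at e
    have hb : ∀ x : Fin (m + 1) → ℝ, (1 : ℝ) ≤ (Iic (x 0)).indicator (fun _ => (1 : ℝ)) 0 +
        (Iic (-x 0)).indicator (fun _ => (1 : ℝ)) 0 := fun x => by
      rcases le_total 0 (x 0) with h | h <;> simp [h, Set.indicator_apply] <;> split_ifs <;> norm_num
    have hi : ∀ {φ : (Fin (m + 1) → ℝ) → ℝ}, Measurable φ →
        IntegrableOn (fun x => (Iic (φ x)).indicator (fun _ => (1 : ℝ)) 0) K := fun {φ} hφ =>
      integrableOn_bdd hK.cpt (Measurable.ite (measurableSet_le measurable_const hφ)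
        measurable_const measurable_const) (C := 1) fun x _ => by
          by_cases h : (0 : ℝ) ≤ φ x <;> simp [h]
    have h := setIntegral_mono_on (μ := volume) (f := fun _ => (1 : ℝ))
      (continuous_const.continuousOn.integrableOn_compact hK.cpt)
      ((hi (measurable_pi_apply 0)).add (hi (measurable_pi_apply 0).neg)) hK.cpt.measurableSet
      fun x _ => hb x
    rw [setIntegral_const, smul_eq_mul, mul_one,
      integral_add' (hi (measurable_pi_apply 0)) (hi (measurable_pi_apply 0).neg)] at h
    simp only [Pi.neg_apply] at h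
    rw [e, ← cap_eq hK] at h
    linarith
  have hS : 0 ≤ ∫ x in K, x 0 ^ 2 := integral_nonneg fun x => sq_nonneg _
  rw [i1, i2] at hmain
  have := mul_le_mul_of_nonneg_left i3 (by positivity : 0 ≤ (∫ x in K, x 0 ^ 2) / 4)
  linarith

end Vale.Agent.P254.OneSym
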