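import Mathlib

/-!
P254: decreasing rearrangements, sums of the largest coordinates and the threshold inequalities.
-/

open Finset

namespace Vale.Agent.P254.OneSym

variable {n : ℕ}

/-- The coordinates in decreasing order. -/
noncomputable def srt (y : Fin n → ℝ) : Fin n → ℝ := y ∘ Tuple.sort (fun i => -y i)

/-- The number of coordinates above a level. -/
noncomputable def cnt (y : Fin n → ℝ) (t : ℝ) : ℕ := (univ.filter fun i => t < y i).card

lemma srt_antitone (y : Fin n → ℝ) : Antitone (srt y) := fun a b h => by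
  have := Tuple.monotone_sort (fun i => -y i) h
  simpa [srt] using this

lemma sum_srt {M : Type*} [AddCommMonoid M] (y : Fin n → ℝ) (φ : ℝ → M) :
    ∑ j, φ (srt y j) = ∑ i, φ (y i) :=
  Equiv.sum_comp (Tuple.sort fun i => -y i) (fun i => φ (y i))

lemma cnt_srt (y : Fin n → ℝ) (t : ℝ) : cnt (srt y) t = cnt y t := by
  simp only [cnt, Finset.card_filter]
  exact sum_srt y fun a => if t < a then 1 else 0

/-- The decreasing rearrangement through the counting function. -/
lemma srt_le_iff (y : Fin n → ℝ) (j : Fin n) (t : ℝ) : srt y j ≤ t ↔ cnt y t ≤ j := by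
  rw [← cnt_srt]
  constructor
  · intro h
    refine le_trans (Finset.card_le_card (t := Iio j) fun i hi => ?_) (Fin.card_Iio j).le
    simp only [mem_filter, mem_univ, true_and] at hi
    rw [mem_Iio]
    by_contra hc
    exact (hi.trans_le ((srt_antitone y (not_lt.mp hc)).trans h)).false
  · intro h
    by_contra hc
    push Not at hc
    have : (Iic j).card ≤ cnt (srt y) t := Finset.card_le_card fun i hi => by
      simp only [mem_filter, mem_univ, true_and]
      exact hc.trans_le (srt_antitone y (mem_Iic.mp hi))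
    rw [Fin.card_Iic] at this
    omega

lemma measurable_srt (j : Fin n) : Measurable fun y : Fin n → ℝ => srt y j := by
  refine measurable_of_Iic fun t => ?_
  have e : (fun y : Fin n → ℝ => srt y j) ⁻¹' Set.Iic t =
      {y | ∑ i, (if t < y i then 1 else 0 : ℕ) ≤ j} := by
    ext y
    show srt y j ≤ t ↔ _
    rw [srt_le_iff, cnt, Finset.card_filter]
    rfl
  rw [e]
  refine measurableSet_le (Finset.measurable_sum _ fun i _ => ?_) measurable_const
  exact Measurable.ite (measurableSet_lt measurable_const (measurable_pi_apply i))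
    measurable_const measurable_const

lemma srt_nonneg {y : Fin n → ℝ} (h : ∀ i, 0 ≤ y i) (j : Fin n) : 0 ≤ srt y j := h _

lemma srt_le_sum {y : Fin n → ℝ} (h : ∀ i, 0 ≤ y i) (j : Fin n) : srt y j ≤ ∑ i, y i :=
  Finset.single_le_sum (fun i _ => h i) (mem_univ _)

/-- Extension by zero to all natural indices. -/
noncomputable def srtN (y : Fin n → ℝ) (j : ℕ) : ℝ := if h : j < n then srt y ⟨j, h⟩ else 0

/-- The sum of the `k` largest coordinates. -/
noncomputable def top (k : ℕ) (y : Fin n → ℝ) : ℝ := ∑ j ∈ range k, srtN y j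

lemma srtN_of_lt (y : Fin n → ℝ) {j : ℕ} (h : j < n) : srtN y j = srt y ⟨j, h⟩ := by
  simp [srtN, h]

lemma top_all (y : Fin n → ℝ) : top n y = ∑ i, y i := by
  rw [top, ← show ∑ j, srt y j = ∑ i, y i from sum_srt y id, ← Fin.sum_univ_eq_sum_range]
  exact Finset.sum_congr rfl fun j _ => srtN_of_lt y j.isLt

lemma srtN_antitone {y : Fin n → ℝ} (h : ∀ i, 0 ≤ y i) : Antitone (srtN y) := by
  intro a b hab
  by_cases hb : b < n
  · rw [srtN_of_lt y hb, srtN_of_lt y (hab.trans_lt hb)]
    exact srt_antitone y (Fin.mk_le_mk.mpr hab)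
  · rw [show srtN y b = 0 by simp [srtN, hb]]
    by_cases ha : a < n
    · rw [srtN_of_lt y ha]; exact srt_nonneg h _
    · simp [srtN, ha]

/-- The sum of the largest coordinates against a threshold. -/
lemma top_le_threshold {k : ℕ} (hk : k ≤ n) (y : Fin n → ℝ) (t : ℝ) :
    top k y ≤ k * t + ∑ i, max (y i - t) 0 := by
  rw [← sum_srt y fun a => max (a - t) 0]
  have h1 : top k y ≤ ∑ j ∈ range k, (t + max (srtN y j - t) 0) :=
    Finset.sum_le_sum fun j _ => by linarith [le_max_left (srtN y j - t) 0]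
  rw [Finset.sum_add_distrib, Finset.sum_const, card_range, nsmul_eq_mul] at h1
  refine h1.trans (add_le_add le_rfl ?_)
  rw [show ∑ j : Fin n, max (srt y j - t) 0 = ∑ j ∈ range n, max (srtN y j - t) 0 by
    rw [← Fin.sum_univ_eq_sum_range]
    exact Finset.sum_congr rfl fun j _ => by rw [srtN_of_lt y j.isLt]]
  exact Finset.sum_le_sum_of_subset_of_nonneg (Finset.range_mono hk) fun j _ _ => le_max_right _ _

/-- At its own threshold the bound is exact. -/
lemma threshold_le_top {k : ℕ} (hk0 : 1 ≤ k) (hk : k ≤ n) (y : Fin n → ℝ) :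
    k * srtN y (k - 1) + ∑ i, max (y i - srtN y (k - 1)) 0 ≤ top k y := by
  set K := srtN y (k - 1) with hK
  have hlt : k - 1 < n := by omega
  rw [← sum_srt y fun a => max (a - K) 0,
    show ∑ j : Fin n, max (srt y j - K) 0 = ∑ j ∈ range n, max (srtN y j - K) 0 by
      rw [← Fin.sum_univ_eq_sum_range]
      exact Finset.sum_congr rfl fun j _ => by rw [srtN_of_lt y j.isLt],
    ← Finset.sum_range_add_sum_Ico _ hk]
  have z : ∑ j ∈ Ico k n, max (srtN y j - K) 0 = 0 := by
    refine Finset.sum_eq_zero fun j hj => max_eq_right ?_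
    rw [mem_Ico] at hj
    rw [hK, srtN_of_lt y hj.2, srtN_of_lt y hlt, sub_nonpos]
    exact srt_antitone y (Fin.mk_le_mk.mpr (by omega))
  rw [z, add_zero, top]
  refine le_of_eq ?_
  rw [show (k : ℝ) * K = ∑ j ∈ range k, K by simp, ← Finset.sum_add_distrib]
  refine Finset.sum_congr rfl fun j hj => ?_
  rw [mem_range] at hj
  have : K ≤ srtN y j := by
    rw [hK, srtN_of_lt y hlt, srtN_of_lt y (by omega : j < n)]
    exact srt_antitone y (Fin.mk_le_mk.mpr (by omega))
  rw [max_eq_left (by linarith)]; ring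

/-- Summation by parts. -/
lemma abel {a d : ℕ → ℝ} (ha : Antitone a) (ha0 : ∀ j, 0 ≤ a j) (m : ℕ)
    (hd : ∀ k ≤ m, 0 ≤ ∑ j ∈ range k, d j) : 0 ≤ ∑ j ∈ range m, a j * d j := by
  have key : ∀ k ≤ m, a k * ∑ j ∈ range k, d j ≤ ∑ j ∈ range k, a j * d j := by
    intro k
    induction k with
    | zero => simp
    | succ k ih =>
      intro hk
      have h1 := ih (by omega)
      have h2 := hd (k + 1) hk
      rw [Finset.sum_range_succ] at h2 ⊢
      rw [Finset.sum_range_succ]
      nlinarith [mul_le_mul_of_nonneg_right (ha (Nat.le_succ k)) h2]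
  exact (mul_nonneg (ha0 m) (hd m le_rfl)).trans (key m le_rfl)

end Vale.Agent.P254.OneSym
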